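import Crest.Agent.R344.Low

/-! Row 344: one more layer. -/

set_option autoImplicit false

namespace Crest.Agent.R344

open Matrix
open scoped Matrix.Norms.L2Operator

variable {N : ℕ}

private theorem step_conj {W : Op N} (hW : IsLoc W) (τ : Finset (Fin N)) :
    ∃ K : Fin N → Matrix Bool Bool ℂ, (∀ i ∉ τ, K i = 1) ∧ Wᴴ * PZ τ * W = tens K := by
  obtain ⟨V, hV, rfl⟩ := hW
  refine ⟨_, fun i hi => ?_, by rw [tens_conjT, PZ_eq_tens, tens_mul, tens_mul]⟩
  simp only [if_neg hi, Matrix.mul_one]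
  exact (hV i).1

private theorem step_count (m : ℕ) :
    (Finset.univ.filter fun τ : Finset (Fin N) => τ.card ≤ m).card ≤ (N + 1) ^ m := by
  have h1 : (Finset.univ.filter fun τ : Finset (Fin N) => τ.card ≤ m) ⊆
      (Finset.range (m + 1)).biUnion fun j => Finset.powersetCard j Finset.univ := by
    intro τ hτ
    simp only [Finset.mem_filter, Finset.mem_univ, true_and] at hτ
    simpa [Nat.lt_succ_iff] using hτ
  refine (Finset.card_le_card h1).trans (Finset.card_biUnion_le.trans ?_)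
  simp only [Finset.card_powersetCard, Finset.card_univ, Fintype.card_fin]
  refine (Finset.sum_le_sum fun j _ => Nat.choose_le_pow N j).trans ?_
  clear h1
  induction m with
  | zero => simp
  | succ m ih =>
    rw [Finset.sum_range_succ, pow_succ, pow_succ, mul_add, mul_one, add_comm]
    exact Nat.add_le_add (Nat.mul_le_mul_right _ (Nat.pow_le_pow_left (Nat.le_succ N) m)) ih

private theorem step_len (G : List (Finset (Fin N))) (hG : G.Pairwise Disjoint)
    (τ : Finset (Fin N)) (h : ∀ g ∈ G, ¬ Disjoint g τ) : G.length ≤ τ.card := by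
  induction G generalizing τ with
  | nil => simp
  | cons g G ih =>
    obtain ⟨i, hig, hiτ⟩ := Finset.not_disjoint_iff.1 (h g List.mem_cons_self)
    rw [List.pairwise_cons] at hG
    have := ih hG.2 (τ.erase i) fun g' hg' => by
      obtain ⟨j, hj, hjτ⟩ := Finset.not_disjoint_iff.1 (h g' (List.mem_cons_of_mem _ hg'))
      refine Finset.not_disjoint_iff.2 ⟨j, hj, Finset.mem_erase.2 ⟨?_, hjτ⟩⟩
      rintro rfl
      exact Finset.disjoint_left.1 (hG.1 g' hg') hig hj
    rw [Finset.card_erase_of_mem hiτ] at this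
    have := Finset.card_pos.2 ⟨i, hiτ⟩
    rw [List.length_cons]
    omega

private theorem step_split (G : List (Finset (Fin N))) (p : Finset (Fin N) → Bool) :
    sg G = sg (G.filter p) * sg (G.filter fun g => !p g) := by
  induction G with
  | nil => simp [sg_nil]
  | cons g G ih =>
    cases hp : p g
    · simp only [List.filter_cons, hp, sg_cons, ih, Bool.not_false, if_true, Bool.false_eq_true,
        if_false]
      rw [← ih, mul_left_comm, ← ih]
    · simp only [List.filter_cons, hp, sg_cons, Bool.not_true, if_true, Bool.false_eq_true,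
        if_false]
      rw [mul_assoc, ← ih]

private theorem step_indep (G : List (Finset (Fin N))) (τ : Finset (Fin N))
    (h : ∀ g ∈ G, Disjoint g τ) (x y : Str N) (hxy : ∀ i ∉ τ, x i = y i) : sg G x = sg G y := by
  induction G with
  | nil => rfl
  | cons g G ih =>
    have h1 : e g x = e g y := by
      simp only [e]
      refine if_congr (forall₂_congr fun i hi => ?_) rfl rfl
      rw [hxy i (Finset.disjoint_left.1 (h g List.mem_cons_self) hi)]
    simp only [sg_cons, Pi.mul_apply, Pi.sub_apply, Pi.smul_apply, Pi.one_apply, h1,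
      ih fun g' hg' => h g' (List.mem_cons_of_mem _ hg')]

private theorem step_low {D : ℕ} {B β : ℝ} {f : Str N → ℂ} (hf : Low D B f) (X Y : Op N)
    (h : ∀ τ : Finset (Fin N), ‖X * PZ τ * Y‖ ≤ β) : ‖X * diagonal f * Y‖ ≤ B * β :=
  hf ((normSeminorm ℂ (Op N)).comp ((LinearMap.mulRight ℂ Y).comp
    ((LinearMap.mulLeft ℂ X).comp (diagonalLinearMap (Str N) ℂ ℂ)))) β fun τ _ => h τ

/-- Depth zero.  `(tens V)ᴴ * PZ τ * tens V = tens K` with `K i = 1` off `τ` (`PZ_eq_tens`,
`tens_mul`, `tens_conjT`), so an entry `(x, y)` vanishes unless `x = y` off `τ`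
(`tens_apply_eq_zero`); then `wt S y = 0` gives `wt S x ≤ |τ|`, and the matrix in `Bd` is `0`. -/
theorem FL_zero : FL N 0 1 := by
  intro r l s hl hs U hU S τ hτ
  cases hU with
  | loc hW =>
    obtain ⟨K, hK, e1⟩ := step_conj hW τ
    have : HI S s * (Uᴴ * PZ τ * U) * PZ S = 0 := by
      ext x y
      rw [e1, HI, PZ, mul_diagonal, diagonal_mul, Matrix.zero_apply]
      by_cases h1 : s < wt S x
      · by_cases h2 : ∀ i ∈ S, y i = false
        · by_cases h3 : ∀ i ∉ τ, x i = y i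
          · have h4 : wt S x ≤ τ.card := Finset.card_le_card fun i hi => by
              by_contra hi'
              rw [Finset.mem_filter, h3 i hi'] at hi
              simpa [h2 i hi.1] using hi.2
            have h5 : (wt S x : ℝ) ≤ r := by exact_mod_cast h4.trans hτ
            linarith
          · push Not at h3
            obtain ⟨i, hi, hxy⟩ := h3
            rw [tens_apply_eq_zero (hK i hi) hxy, mul_zero, zero_mul]
        · rw [e, if_neg h2, mul_zero]
      · rw [if_neg h1, zero_mul, zero_mul]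
    rw [this, norm_zero]
    exact (Real.exp_pos _).le

/-- Starting from weight `≤ k`: `1 - HI S k = ∑ τ ⊆ S, |τ| ≤ k, Π τ` with
`Π τ = diagonal (indicator (S.filter (x · = true) = τ)) = PZ (S \ τ) * Π τ`, and
`HI S s = HI S s * HI (S \ τ) (s - k)`; there are at most `(N + 1) ^ ⌊k⌋₊ ≤ exp (k * LL N)` such
`τ`. -/
theorem Bd.low {t : ℕ} {s k β : ℝ} (hk : 0 ≤ k) (h : Bd N t N (s - k) β) {U : Op N}
    (hU : Circ t U) (S S' : Finset (Fin N)) :
    ‖HI S s * (Uᴴ * PZ S' * U) * (1 - HI S k)‖ ≤ Real.exp (k * LL N) * β := by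
  have hβ : 0 ≤ β := (norm_nonneg _).trans (h U hU S S' (by simpa using S'.card_le_univ))
  obtain ⟨P, hP⟩ : ∃ P : Finset (Fin N) → Op N,
      ∀ τ, P τ = diagonal fun x => if (S.filter fun i => x i = true) = τ then 1 else 0 :=
    ⟨_, fun _ => rfl⟩
  have e1 : 1 - HI S k =
      ∑ τ ∈ Finset.univ.filter fun τ : Finset (Fin N) => τ.card ≤ ⌊k⌋₊, P τ := by
    ext x y
    simp only [hP, HI, Matrix.sub_apply, Matrix.sum_apply, one_apply, diagonal_apply]
    by_cases hxy : x = y
    · simp only [if_pos hxy, Finset.sum_ite_eq, Finset.mem_filter, Finset.mem_univ, true_and,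
        Nat.le_floor_iff hk]
      change _ = if (wt S x : ℝ) ≤ k then _ else _
      by_cases h1 : k < wt S x
      · rw [if_pos h1, if_neg (not_le.2 h1), sub_self]
      · rw [if_neg h1, if_pos (not_lt.1 h1), sub_zero]
    · simp [hxy]
  have h1 : ∀ τ ∈ Finset.univ.filter fun τ : Finset (Fin N) => τ.card ≤ ⌊k⌋₊,
      ‖HI S s * (Uᴴ * PZ S' * U) * P τ‖ ≤ β := by
    intro τ hτ
    simp only [Finset.mem_filter, Finset.mem_univ, true_and, Nat.le_floor_iff hk] at hτ
    have e2 : P τ = PZ (S \ τ) * P τ := by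
      rw [hP, PZ, diagonal_mul_diagonal]
      congr 1
      funext x
      split_ifs with hx
      · rw [e, if_pos, mul_one]
        intro i hi
        rw [← hx, Finset.mem_sdiff, Finset.mem_filter] at hi
        simpa [hi.1] using hi.2
      · rw [mul_zero]
    have e3 : HI S s = HI S s * HI (S \ τ) (s - k) := by
      rw [HI, HI, diagonal_mul_diagonal]
      congr 1
      funext x
      by_cases hx : s < wt S x
      · have h4 : wt S x ≤ wt (S \ τ) x + τ.card := by
          refine (Finset.card_le_card fun i hi => ?_).trans (Finset.card_union_le _ _)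
          rw [Finset.mem_filter] at hi
          by_cases hi' : i ∈ τ <;> simp [hi.1, hi.2, hi']
        have h5 : (wt S x : ℝ) ≤ wt (S \ τ) x + τ.card := by exact_mod_cast h4
        rw [if_pos hx, if_pos (by linarith), mul_one]
      · rw [if_neg hx, zero_mul]
    have h2 : ‖P τ‖ ≤ 1 := by
      rw [hP]
      exact norm_diagonal_le zero_le_one fun x => by split_ifs <;> simp
    have h3 := h U hU (S \ τ) S' (by simpa using S'.card_le_univ)
    have h4 := norm_HI_le S s
    calc ‖HI S s * (Uᴴ * PZ S' * U) * P τ‖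
        = ‖HI S s * (HI (S \ τ) (s - k) * (Uᴴ * PZ S' * U) * PZ (S \ τ)) * P τ‖ := by
          conv_lhs => rw [e2, e3]
          simp only [Matrix.mul_assoc]
      _ ≤ _ := norm_mul₃_le
      _ ≤ 1 * β * 1 := by gcongr
      _ = β := by ring
  rw [e1, Matrix.mul_sum]
  refine (norm_sum_le _ _).trans ((Finset.sum_le_card_nsmul _ _ _ h1).trans ?_)
  rw [nsmul_eq_mul]
  refine mul_le_mul_of_nonneg_right ?_ hβ
  have hN : (0 : ℝ) ≤ N := Nat.cast_nonneg N
  calc ((Finset.univ.filter fun τ : Finset (Fin N) => τ.card ≤ ⌊k⌋₊).card : ℝ)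
      ≤ ((N : ℝ) + 1) ^ ⌊k⌋₊ := by exact_mod_cast step_count ⌊k⌋₊
    _ ≤ Real.exp (LL N) ^ ⌊k⌋₊ := by
        rw [exp_LL]
        gcongr
        · linarith
        · norm_num
    _ ≤ Real.exp (k * LL N) := by
        rw [← Real.exp_nat_mul]
        exact Real.exp_le_exp.2 (mul_le_mul_of_nonneg_right (Nat.floor_le hk)
          (by linarith [two_le_LL (N := N)]))

/-- One more layer.  For `U = W * D * U₀`, `K = Wᴴ * PZ τ * W = tens _` acts on `τ` only.  Split
the list `G` of `D` into the sets `T` meeting `τ` (at most `|τ|` of them, by disjointness) and the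
others, whose sign function commutes with `K` (`comm_diag_tens`) and squares to one
(`sg_mul_self`): `D * K * D = D_T * K * D_T`.  Use `Low.sg T` twice (the seminorms are
`(normSeminorm ℂ (Op N)).comp (linear map)`), which costs `9 ^ r` and leaves
`‖HI S s * Q₁ * Q₂ * Q₃ * PZ S‖` with `Q₁ = U₀ᴴ * PZ A * U₀`, `Q₂ = (W * U₀)ᴴ * PZ τ * (W * U₀)`,
`Q₃ = U₀ᴴ * PZ B * U₀`.  Insert `1 = HI S k + (1 - HI S k)` twice: this is at most
`‖HI s Q₁ (1 - HI k₂)‖ + ‖HI k₂ Q₂ (1 - HI k₁)‖ + ‖HI k₁ Q₃ PZ‖`.  With `u = l + 3 r + 2`,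
`k₁ = Λ u`, `k₂ = k₁ + Λ (u + k₁ L)`, `s ≥ k₂ + Λ (u + k₂ L)` each term is `≤ exp (-u)`. -/
theorem FL_succ {t : ℕ} {Λ : ℝ} (hΛ : 1 ≤ Λ) (h : PL N t Λ) :
    FL N (t + 1) (21 * Λ ^ 3 * LL N ^ 2) := by
  intro r l s hl hs U hU S τ hτ
  have hL := two_le_LL (N := N)
  have hr : (0 : ℝ) ≤ r := Nat.cast_nonneg r
  obtain ⟨u, hu⟩ : ∃ u : ℝ, u = l + 3 * r + 2 := ⟨_, rfl⟩
  have hu1 : 1 ≤ u := by linarith
  obtain ⟨k₁, hk₁⟩ : ∃ k₁ : ℝ, k₁ = Λ * u := ⟨_, rfl⟩
  have hk₁0 : 0 ≤ k₁ := by rw [hk₁]; positivity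
  obtain ⟨k₂, hk₂⟩ : ∃ k₂ : ℝ, k₂ = k₁ + Λ * (u + k₁ * LL N) := ⟨_, rfl⟩
  have hk₂0 : 0 ≤ k₂ := by rw [hk₂]; positivity
  have hs' : Λ * (u + k₂ * LL N) ≤ s - k₂ := by
    have h1 : 2 ≤ Λ * LL N := by nlinarith
    have h2 : k₂ ≤ 2 * (Λ * LL N) * k₁ := by
      rw [hk₂, mul_add, ← hk₁]
      nlinarith [mul_le_mul_of_nonneg_right h1 hk₁0]
    have h3 : k₁ ≤ Λ * (3 * (r + l)) := by rw [hk₁]; gcongr; linarith
    have h4 : Λ * (u + k₂ * LL N) + k₂ ≤ 7 * (Λ * LL N) ^ 2 * k₁ := by
      rw [mul_add, ← hk₁]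
      have h5 : (Λ * LL N + 1) * k₂ ≤ (Λ * LL N + 1) * (2 * (Λ * LL N) * k₁) := by gcongr
      have h6 : 0 ≤ (5 * (Λ * LL N) ^ 2 - 2 * (Λ * LL N) - 1) * k₁ :=
        mul_nonneg (by nlinarith) hk₁0
      nlinarith
    have h5 : 7 * (Λ * LL N) ^ 2 * k₁ ≤ 7 * (Λ * LL N) ^ 2 * (Λ * (3 * (r + l))) := by gcongr
    nlinarith
  have low : ∀ {k s' : ℝ}, 0 ≤ k → Λ * (u + k * LL N) ≤ s' - k → ∀ {V : Op N}, Circ t V →
      ∀ A : Finset (Fin N), ‖HI S s' * (Vᴴ * PZ A * V) * (1 - HI S k)‖ ≤ Real.exp (-u) := by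
    intro k s' hk hs' V hV A
    refine (Bd.low hk (h (u + k * LL N) _ (by nlinarith) hs') hV S A).trans_eq ?_
    rw [← Real.exp_add]
    congr 1
    ring
  cases hU with
  | @step _ U₀ D W hU₀ hD hW =>
    have key : ∀ A B : Finset (Fin N),
        ‖HI S s * U₀ᴴ * PZ A * (Wᴴ * PZ τ * W) * PZ B * (U₀ * PZ S)‖ ≤ 3 * Real.exp (-u) := by
      intro A B
      have a1 := low hk₂0 hs' hU₀ A
      have a2 := low hk₁0 (s' := k₂) (by linarith) (hU₀.loc_mul hW) τ
      have a3 := h u k₁ hu1 hk₁.ge U₀ hU₀ S B (by simpa using B.card_le_univ)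
      have b1 := hU₀.norm_conj_le A
      have b2 := (hU₀.loc_mul hW).norm_conj_le τ
      have b3 := hU₀.norm_conj_le B
      have e1 : HI S s * U₀ᴴ * PZ A * (Wᴴ * PZ τ * W) * PZ B * (U₀ * PZ S) =
          HI S s * (U₀ᴴ * PZ A * U₀) * ((W * U₀)ᴴ * PZ τ * (W * U₀)) * (U₀ᴴ * PZ B * U₀) * PZ S := by
        simp only [conjTranspose_mul, Matrix.mul_assoc]
        rw [← Matrix.mul_assoc U₀ U₀ᴴ, ← Matrix.mul_assoc U₀ U₀ᴴ, hU₀.unitary', Matrix.one_mul,
          Matrix.one_mul]
      rw [e1]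
      generalize U₀ᴴ * PZ A * U₀ = Q₁ at *
      generalize (W * U₀)ᴴ * PZ τ * (W * U₀) = Q₂ at *
      generalize U₀ᴴ * PZ B * U₀ = Q₃ at *
      have c0 := norm_PZ_le S
      have c1 := norm_HI_le S s
      have c2 := norm_HI_le S k₂
      have d1 : ‖Q₃ * PZ S‖ ≤ 1 := (norm_mul_le _ _).trans (mul_le_one₀ b3 (norm_nonneg _) c0)
      have d2 : ‖HI S s * Q₁‖ ≤ 1 := (norm_mul_le _ _).trans (mul_le_one₀ c1 (norm_nonneg _) b1)
      have d3 : ‖HI S k₂ * Q₂‖ ≤ 1 := (norm_mul_le _ _).trans (mul_le_one₀ c2 (norm_nonneg _) b2)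
      have e2 : HI S s * Q₁ * Q₂ * Q₃ * PZ S =
          HI S s * Q₁ * (1 - HI S k₂) * Q₂ * (Q₃ * PZ S) +
          HI S s * Q₁ * (HI S k₂ * Q₂ * (1 - HI S k₁)) * (Q₃ * PZ S) +
          HI S s * Q₁ * (HI S k₂ * Q₂) * (HI S k₁ * Q₃ * PZ S) := by noncomm_ring
      have hE := (Real.exp_pos (-u)).le
      rw [e2]
      refine norm_add₃_le.trans ?_
      calc _ ≤ Real.exp (-u) * 1 * 1 + 1 * Real.exp (-u) * 1 + 1 * 1 * Real.exp (-u) := by
            refine add_le_add (add_le_add ?_ ?_) ?_ <;> refine norm_mul₃_le.trans ?_ <;> gcongr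
        _ = 3 * Real.exp (-u) := by ring
    obtain ⟨G, hG, rfl⟩ := hD
    obtain ⟨K, hK, eK⟩ := step_conj hW τ
    obtain ⟨T, hT⟩ : ∃ T, T = G.filter fun g => !decide (Disjoint g τ) := ⟨_, rfl⟩
    obtain ⟨R, hR⟩ : ∃ R, R = G.filter fun g => decide (Disjoint g τ) := ⟨_, rfl⟩
    have hlen : T.length ≤ r := by
      refine (step_len T (hT ▸ hG.filter _) τ fun g hg => ?_).trans hτ
      rw [hT, List.mem_filter] at hg
      simpa using hg.2
    have hcomm : diagonal (sg R) * tens K = tens K * diagonal (sg R) :=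
      comm_diag_tens hK (step_indep R τ fun g hg => by
        rw [hR, List.mem_filter] at hg
        simpa using hg.2)
    have hRR : (diagonal (sg R) * diagonal (sg R) : Op N) = 1 := by
      rw [diagonal_mul_diagonal, ← diagonal_one]
      congr 1
      exact sg_mul_self R
    have hsp : sg G = sg R * sg T := by rw [hR, hT]; exact step_split G _
    have e1 : diagonal (sg G) * tens K * diagonal (sg G) =
        diagonal (sg T) * tens K * diagonal (sg T) := by
      have f1 : (diagonal (sg G) : Op N) = diagonal (sg T) * diagonal (sg R) := by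
        rw [diagonal_mul_diagonal', hsp, mul_comm]; rfl
      have f2 : (diagonal (sg G) : Op N) = diagonal (sg R) * diagonal (sg T) := by
        rw [diagonal_mul_diagonal', hsp]; rfl
      calc diagonal (sg G) * tens K * diagonal (sg G)
          = diagonal (sg T) * diagonal (sg R) * tens K * (diagonal (sg R) * diagonal (sg T)) := by
            rw [← f1, ← f2]
        _ = diagonal (sg T) * (diagonal (sg R) * tens K * diagonal (sg R)) * diagonal (sg T) := by
            simp only [Matrix.mul_assoc]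
        _ = _ := by rw [hcomm, Matrix.mul_assoc (tens K), hRR, Matrix.mul_one]
    have e2 : HI S s * ((W * diagonal (sg G) * U₀)ᴴ * PZ τ * (W * diagonal (sg G) * U₀)) * PZ S =
        HI S s * U₀ᴴ * diagonal (sg T) * (tens K * diagonal (sg T) * (U₀ * PZ S)) := by
      calc _ = HI S s * U₀ᴴ * (diagonal (sg G) * (Wᴴ * PZ τ * W) * diagonal (sg G)) *
            (U₀ * PZ S) := by
            simp only [conjTranspose_mul, diagonal_conjTranspose, star_sg, Matrix.mul_assoc]
        _ = _ := by rw [eK, e1]; simp only [Matrix.mul_assoc]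
    rw [e2]
    refine (step_low (Low.sg T) _ _ (β := 3 ^ T.length * (3 * Real.exp (-u))) fun A => ?_).trans ?_
    · have := step_low (Low.sg T) _ _ (key A)
      rw [eK] at this
      simpa only [Matrix.mul_assoc] using this
    · have h9 : (3 : ℝ) ^ T.length * 3 ^ T.length ≤ Real.exp (3 * r) := by
        have h3 : (9 : ℝ) ≤ Real.exp 3 := by
          have := Real.quadratic_le_exp_of_nonneg (x := 3 / 2) (by norm_num)
          rw [show (3 : ℝ) = 3 / 2 + 3 / 2 by norm_num, Real.exp_add]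
          nlinarith
        rw [← mul_pow, mul_comm (3 : ℝ) (r : ℝ), Real.exp_nat_mul]
        calc ((3 : ℝ) * 3) ^ T.length ≤ 9 ^ r := by
              rw [show (3 : ℝ) * 3 = 9 by norm_num]
              exact pow_le_pow_right₀ (by norm_num) hlen
          _ ≤ _ := by gcongr
      have h3 : (3 : ℝ) ≤ Real.exp 2 := by linarith [Real.add_one_le_exp 2]
      calc (3 : ℝ) ^ T.length * (3 ^ T.length * (3 * Real.exp (-u)))
          = 3 ^ T.length * 3 ^ T.length * 3 * Real.exp (-u) := by ring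
        _ ≤ Real.exp (3 * r) * Real.exp 2 * Real.exp (-u) := by gcongr
        _ = Real.exp (-l) := by
            rw [← Real.exp_add, ← Real.exp_add, hu]
            congr 1
            ring

end Crest.Agent.R344
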