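import Crest.Agent.R344.Boot
import Crest.Agent.R344.Step

/-! Row 344: locality on the scale `N ^ δ` in every fixed depth. -/

set_option autoImplicit false

namespace Crest.Agent.R344

open Filter

theorem LL_pow_le (C : ℝ) (k : ℕ) {ε : ℝ} (hε : 0 < ε) :
    ∀ᶠ N : ℕ in atTop, C * LL N ^ k ≤ (N : ℝ) ^ ε := by
  have h0 := isLittleO_log_rpow_rpow_atTop (k : ℝ) hε
  have ht : Tendsto (fun N : ℕ => (8 * N + 8 : ℝ)) atTop atTop :=
    tendsto_atTop_add_const_right _ _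
      (Tendsto.const_mul_atTop (by norm_num) tendsto_natCast_atTop_atTop)
  have hc : (0 : ℝ) < 1 / ((|C| + 1) * 16 ^ ε) := by positivity
  have h1 := ht.eventually (h0.bound hc)
  filter_upwards [h1, eventually_ge_atTop 1] with N hN hN1
  have hN1' : (1 : ℝ) ≤ N := by exact_mod_cast hN1
  have hL : (0 : ℝ) ≤ LL N := le_trans (by norm_num) two_le_LL
  have hN : LL N ^ k ≤ 1 / ((|C| + 1) * 16 ^ ε) * (8 * N + 8 : ℝ) ^ ε := by
    rw [Real.rpow_natCast, Real.norm_of_nonneg (show (0 : ℝ) ≤ (8 * N + 8 : ℝ) ^ ε by positivity)]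
      at hN
    exact le_trans (le_abs_self _) hN
  have h2 : (8 * N + 8 : ℝ) ^ ε ≤ 16 ^ ε * (N : ℝ) ^ ε := by
    rw [← Real.mul_rpow (by norm_num) (by positivity)]
    exact Real.rpow_le_rpow (by positivity) (by linarith) hε.le
  have h3 : LL N ^ k ≤ (N : ℝ) ^ ε / (|C| + 1) := by
    refine le_trans hN ?_
    calc 1 / ((|C| + 1) * 16 ^ ε) * (8 * N + 8 : ℝ) ^ ε
        ≤ 1 / ((|C| + 1) * 16 ^ ε) * (16 ^ ε * (N : ℝ) ^ ε) := by gcongr
      _ = (N : ℝ) ^ ε / (|C| + 1) := by field_simp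
  rw [le_div_iff₀ (by positivity)] at h3
  have h4 : C ≤ |C| + 1 := le_trans (le_abs_self C) (by linarith)
  have h5 := pow_nonneg hL k
  nlinarith

/-- Induction on `t`: choose `j ≥ 9 / δ`, `δ' = δ / (9 (j + 1))`, `ρ = N ^ (1 / (j + 1))`; the
remaining factor `21 * 120 ^ (3 j) * LL N ^ (6 j + 2)` is eventually at most `N ^ (δ / 3)`. -/
theorem FL_eventually (t : ℕ) {δ : ℝ} (hδ : 0 < δ) :
    ∀ᶠ N : ℕ in atTop, FL N t ((N : ℝ) ^ δ) := by
  induction t generalizing δ with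
  | zero =>
    filter_upwards [eventually_ge_atTop 1] with N hN
    have hN1' : (1 : ℝ) ≤ N := by exact_mod_cast hN
    exact FL_zero.mono (Real.one_le_rpow hN1' hδ.le)
  | succ t ih =>
    obtain ⟨j, hj⟩ := exists_nat_ge (9 / δ)
    have hj1 : (0 : ℝ) < j + 1 := by positivity
    have hδ' : 0 < δ / (9 * (j + 1)) := by positivity
    have hδ3 : 0 < δ / 3 := by positivity
    filter_upwards [ih hδ', LL_pow_le (21 * 120 ^ (3 * j)) (6 * j + 2) hδ3,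
      eventually_ge_atTop 1] with N h1 h2 hN
    have hN1 : (1 : ℝ) ≤ N := by exact_mod_cast hN
    have hN0 : (0 : ℝ) < N := by linarith
    have hL : (2 : ℝ) ≤ LL N := two_le_LL
    set Λ : ℝ := (N : ℝ) ^ (δ / (9 * (j + 1))) with hΛ
    set ρ : ℝ := (N : ℝ) ^ (1 / ((j : ℝ) + 1)) with hρ
    have hΛ1 : 1 ≤ Λ := Real.one_le_rpow hN1 hδ'.le
    have hρ1 : 1 ≤ ρ := Real.one_le_rpow hN1 (by positivity)
    have hρN : (N : ℝ) ≤ ρ ^ (j + 1) := by
      rw [hρ, ← Real.rpow_natCast, ← Real.rpow_mul hN0.le]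
      push_cast
      rw [one_div_mul_cancel hj1.ne', Real.rpow_one]
    have hP := PL_of_FL (j := j) hΛ1 h1 (by linarith) hρN
    have hB : (1 : ℝ) ≤ 120 * Λ * LL N ^ 2 := by nlinarith
    have hΛ' : (1 : ℝ) ≤ (120 * Λ * LL N ^ 2) ^ j * ρ :=
      one_le_mul_of_one_le_of_one_le (one_le_pow₀ hB) hρ1
    refine (FL_succ hΛ' hP).mono ?_
    have hΛj : Λ ^ j ≤ (N : ℝ) ^ (δ / 9) := by
      rw [hΛ, ← Real.rpow_natCast, ← Real.rpow_mul hN0.le]
      refine Real.rpow_le_rpow_of_exponent_le hN1 ?_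
      rw [div_mul_eq_mul_div, div_le_div_iff₀ (by positivity) (by norm_num)]
      nlinarith
    have hρ9 : ρ ≤ (N : ℝ) ^ (δ / 9) := by
      refine Real.rpow_le_rpow_of_exponent_le hN1 ?_
      rw [div_le_iff₀ hδ] at hj
      rw [div_le_div_iff₀ hj1 (by norm_num)]
      nlinarith
    have hE : (N : ℝ) ^ δ = (N : ℝ) ^ (δ / 3) * ((N : ℝ) ^ (δ / 9) * (N : ℝ) ^ (δ / 9)) ^ 3 := by
      rw [← Real.rpow_add hN0, ← Real.rpow_natCast, ← Real.rpow_mul hN0.le, ← Real.rpow_add hN0]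
      congr 1
      push_cast
      ring
    have hΛ0 : 0 ≤ Λ := by linarith
    have hρ0 : 0 ≤ ρ := by linarith
    calc 21 * ((120 * Λ * LL N ^ 2) ^ j * ρ) ^ 3 * LL N ^ 2
        = (21 * 120 ^ (3 * j) * LL N ^ (6 * j + 2)) * (Λ ^ j * ρ) ^ 3 := by ring
      _ ≤ (N : ℝ) ^ (δ / 3) * ((N : ℝ) ^ (δ / 9) * (N : ℝ) ^ (δ / 9)) ^ 3 := by gcongr
      _ = (N : ℝ) ^ δ := hE.symm

end Crest.Agent.R344
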