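import Crest.Agent.R344.Low

/-! Row 344: the bootstrap from few-site locality to projector locality. -/

set_option autoImplicit false

namespace Crest.Agent.R344

open Matrix
open scoped Matrix.Norms.L2Operator ComplexOrder

variable {N : ℕ}

open scoped MatrixOrder in
theorem norm_le_of_sq {A D E : Op N} (h : Aᴴ * A + E = Dᴴ * D) (hE : E.PosSemidef) :
    ‖A‖ ≤ ‖D‖ := by
  have h1 : ‖Aᴴ * A‖ ≤ ‖Dᴴ * D‖ :=
    CStarAlgebra.norm_le_norm_of_nonneg_of_le
      (nonneg_iff_posSemidef.mpr (posSemidef_conjTranspose_mul_self A))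
      (by rw [le_iff, ← h, add_sub_cancel_left]; exact hE)
  rw [l2_opNorm_conjTranspose_mul_self, l2_opNorm_conjTranspose_mul_self] at h1
  exact abs_le_abs_of_mul_self_le h1 (norm_nonneg _) (norm_nonneg _)
where
  abs_le_abs_of_mul_self_le {a b : ℝ} (h : a * a ≤ b * b) (_ : 0 ≤ a) (hb : 0 ≤ b) : a ≤ b :=
    le_of_sq_le_sq (by nlinarith) hb

/-- The resolvent splitting of the range of `P'`. -/
theorem split {P P' : Op N} (hP : Pᴴ = P) (hP2 : P * P = P) (hP' : P'ᴴ = P') (hP2' : P' * P' = P')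
    (hn : ‖P'‖ ≤ 1) {σ : ℝ} (hσ : 0 < σ) :
    ∃ R : Op N, P' = P' * P * R + (σ : ℂ) • R ∧ σ * ‖R‖ ≤ 1 ∧ ‖P' * P * R‖ ≤ 1 ∧
      σ * ‖P * R‖ ≤ √σ := by
  set A : Op N := P' * P * P' + (σ : ℂ) • 1 with hA
  have hM : (P' * P * P').PosSemidef := by
    have := posSemidef_conjTranspose_mul_self (P * P')
    rwa [conjTranspose_mul, hP, hP', Matrix.mul_assoc, ← Matrix.mul_assoc P P, hP2,
      ← Matrix.mul_assoc] at this
  have hσ' : (0 : ℂ) < σ := by exact_mod_cast hσ
  have hAu : IsUnit A := (PosDef.posSemidef_add hM (PosDef.one.smul hσ')).isUnit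
  obtain ⟨B, hB1, hB2⟩ : ∃ B, A * B = 1 ∧ B * A = 1 := ⟨_, hAu.mul_val_inv, hAu.val_inv_mul⟩
  have hc : P' * A = A * P' := by
    rw [hA, Matrix.mul_add, Matrix.add_mul, ← Matrix.mul_assoc, ← Matrix.mul_assoc, hP2',
      Matrix.mul_assoc _ P' P', hP2']
    simp
  have hc' : P' * B = B * P' := by
    calc P' * B = B * A * P' * B := by rw [hB2, Matrix.one_mul]
      _ = B * P' * (A * B) := by rw [Matrix.mul_assoc B A, ← hc]; simp only [Matrix.mul_assoc]
      _ = B * P' := by rw [hB1, Matrix.mul_one]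
  set R := B * P' with hR
  have hPR : P' * R = R := by rw [hR, ← Matrix.mul_assoc, hc', Matrix.mul_assoc, hP2']
  have h1 : P' = P' * P * R + (σ : ℂ) • R := by
    calc P' = A * R := by rw [hR, ← Matrix.mul_assoc, hB1, Matrix.one_mul]
      _ = _ := by
        rw [hA, Matrix.add_mul, Matrix.mul_assoc _ P' R, hPR, Matrix.smul_mul, Matrix.one_mul]
  clear_value R
  have hRP : Rᴴ * P' = Rᴴ := by
    have := congrArg conjTranspose hPR
    rwa [conjTranspose_mul, hP'] at this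
  have h2 : Rᴴ * (P' * P * R) = (P * R)ᴴ * (P * R) := by
    calc Rᴴ * (P' * P * R) = Rᴴ * P' * (P * P) * R := by rw [hP2]; simp only [Matrix.mul_assoc]
      _ = _ := by rw [hRP, conjTranspose_mul, hP]; simp only [Matrix.mul_assoc]
  have h3 : (P' * P * R)ᴴ * R = (P * R)ᴴ * (P * R) := by
    have := congrArg conjTranspose h2
    simpa only [conjTranspose_mul, conjTranspose_conjTranspose] using this
  set X := P' * P * R
  set Y := ((√(2 * σ) : ℝ) : ℂ) • (P * R) with hY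
  set Z := (σ : ℂ) • R with hZ
  have hs : ((√(2 * σ) : ℝ) : ℂ) * (√(2 * σ) : ℝ) = 2 * σ := by
    exact_mod_cast Real.mul_self_sqrt (by positivity)
  have key : Xᴴ * X + Yᴴ * Y + Zᴴ * Z = P'ᴴ * P' := by
    conv_rhs => rw [h1]
    rw [hY, hZ]
    simp only [conjTranspose_add, conjTranspose_smul, Matrix.add_mul, Matrix.mul_add,
      Matrix.smul_mul, Matrix.mul_smul, h2, h3, smul_smul, Complex.star_def, Complex.conj_ofReal,
      hs]
    module
  have pX := posSemidef_conjTranspose_mul_self X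
  have pY := posSemidef_conjTranspose_mul_self Y
  have pZ := posSemidef_conjTranspose_mul_self Z
  have nX := norm_le_of_sq (A := X) (D := P') (by rw [← key, add_assoc]) (pY.add pZ)
  have nY := norm_le_of_sq (A := Y) (D := P') (by rw [← key]; abel) (pX.add pZ)
  have nZ := norm_le_of_sq (A := Z) (D := P') (by rw [← key]; abel) (pX.add pY)
  rw [hY, norm_smul, Complex.norm_real, Real.norm_of_nonneg (Real.sqrt_nonneg _)] at nY
  rw [hZ, norm_smul, Complex.norm_real, Real.norm_of_nonneg hσ.le] at nZ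
  refine ⟨R, h1, nZ.trans hn, nX.trans hn, ?_⟩
  have h4 : √σ ≤ √(2 * σ) := Real.sqrt_le_sqrt (by linarith)
  have h5 : √σ * √σ = σ := Real.mul_self_sqrt hσ.le
  have h6 : √σ * ‖P * R‖ ≤ 1 := le_trans (by gcongr) (nY.trans hn)
  calc σ * ‖P * R‖ = √σ * (√σ * ‖P * R‖) := by rw [← mul_assoc, h5]
    _ ≤ √σ * 1 := by gcongr
    _ = √σ := mul_one _

theorem norm_mul₄_le {A B C D : Op N} : ‖A * B * C * D‖ ≤ ‖A‖ * ‖B‖ * ‖C‖ * ‖D‖ :=
  (norm_mul_le _ _).trans (mul_le_mul_of_nonneg_right norm_mul₃_le (norm_nonneg _))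

/-- The linear map `f ↦ A * diagonal f * B`. -/
noncomputable def sand (A B : Op N) : (Str N → ℂ) →ₗ[ℂ] Op N :=
  (LinearMap.mulRight ℂ B).comp ((LinearMap.mulLeft ℂ A).comp (diagonalLinearMap (Str N) ℂ ℂ))

theorem Low.sand_le {D : ℕ} {B β : ℝ} {p : Str N → ℂ} (hp : Low D B p) (A C : Op N)
    (h : ∀ τ : Finset (Fin N), τ.card ≤ D → ‖A * PZ τ * C‖ ≤ β) :
    ‖A * diagonal p * C‖ ≤ B * β :=
  hp ((normSeminorm ℂ (Op N)).comp (sand A C)) β h

theorem boot_step {t D : ℕ} {x s α β η B σ : ℝ} (hx : 0 ≤ x) (hσ : 0 < σ) (hη : 0 ≤ η)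
    (hA : Bd N t N x α) (hF : Bd N t D s β)
    (hp : ∀ S : Finset (Fin N), ∃ p, Low D B p ∧ ∀ z, (wt S z : ℝ) ≤ x → ‖e S z - p z‖ ≤ η) :
    Bd N t N s (√σ + η + B * (α / σ) + B * β) := by
  intro U hU S S' _
  obtain ⟨p, hp1, hp2⟩ := hp S'
  have hB : 0 ≤ B := (norm_nonneg _).trans (hp1.norm_le fun _ => false)
  have hU1 := hU.unitary
  have hU2 := hU.unitary'
  have nU := hU.norm_le
  have nU' := hU.conjT.norm_le
  have nH := norm_HI_le S s
  set P := Uᴴ * PZ S' * U with hP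
  obtain ⟨R, h1, h2, h3, h4⟩ := split (P := P) (P' := PZ S)
    (by simp only [hP, conjTranspose_mul, conjTranspose_conjTranspose, PZ_conjT, Matrix.mul_assoc])
    (by
      calc P * P = Uᴴ * (PZ S' * (U * Uᴴ) * PZ S') * U := by simp only [hP, Matrix.mul_assoc]
        _ = P := by rw [hU2, Matrix.mul_one, PZ_mul_self])
    (PZ_conjT S) (PZ_mul_self S) (norm_PZ_le S) hσ
  set u := PZ S * P * R with hu
  have hu' : PZ S * u = u := by rw [hu, ← Matrix.mul_assoc, ← Matrix.mul_assoc, PZ_mul_self]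
  set d : Op N := diagonal fun z => if x < wt S' z then 0 else e S' z - p z with hd
  have nd : ‖d‖ ≤ η := norm_diagonal_le hη fun z => by
    split_ifs with h
    · simpa using hη
    · exact hp2 z (not_lt.mp h)
  have np : ‖(diagonal p : Op N)‖ ≤ B := norm_diagonal_le hB hp1.norm_le
  have hdec : PZ S' = diagonal p + d - diagonal p * HI S' x := by
    rw [PZ, hd, HI, diagonal_mul_diagonal, diagonal_add, diagonal_sub]
    congr 1
    funext z
    split_ifs with h
    · have : wt S' z ≠ 0 := by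
        intro h0; rw [h0] at h; simp at h; linarith
      simp [e_eq, this]
    · simp
  have e1 : HI S s * P * PZ S = HI S s * ((σ : ℂ) • (P * R)) + HI S s * Uᴴ * d * U * u -
      HI S s * Uᴴ * diagonal p * (HI S' x * (Uᴴᴴ * PZ S * Uᴴ) * PZ S') * (U * R) +
      HI S s * Uᴴ * diagonal p * (U * PZ S) * u := by
    have e2 : HI S' x * (Uᴴᴴ * PZ S * Uᴴ) * PZ S' * (U * R) = HI S' x * U * u := by
      simp only [hu, hP, conjTranspose_conjTranspose, Matrix.mul_assoc]
    have e3 : P * u = Uᴴ * (diagonal p + d - diagonal p * HI S' x) * U * u := by rw [← hdec]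
    calc HI S s * P * PZ S = HI S s * (P * u) + HI S s * ((σ : ℂ) • (P * R)) := by
          conv_lhs => rw [h1]
          simp only [Matrix.mul_add, Matrix.mul_smul, Matrix.mul_assoc]
      _ = _ := by
          rw [e3, Matrix.mul_assoc _ _ (U * R), e2, Matrix.mul_assoc _ (U * PZ S),
            Matrix.mul_assoc U, hu']
          simp only [Matrix.mul_add, Matrix.mul_sub, Matrix.add_mul, Matrix.sub_mul,
            Matrix.mul_assoc]
          abel
  have n1 : ‖HI S s * ((σ : ℂ) • (P * R))‖ ≤ √σ := by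
    refine (norm_mul_le _ _).trans ?_
    rw [norm_smul, Complex.norm_real, Real.norm_of_nonneg hσ.le]
    calc _ ≤ 1 * √σ := by gcongr
      _ = _ := one_mul _
  have nHU : ‖HI S s * Uᴴ‖ ≤ 1 := (norm_mul_le _ _).trans (mul_le_one₀ nH (norm_nonneg _) nU')
  have n2 : ‖HI S s * Uᴴ * d * U * u‖ ≤ η := by
    calc _ ≤ ‖HI S s * Uᴴ‖ * ‖d‖ * ‖U‖ * ‖u‖ := norm_mul₄_le
      _ ≤ 1 * η * 1 * 1 := by gcongr
      _ = η := by ring
  have n3 : ‖HI S s * Uᴴ * diagonal p * (HI S' x * (Uᴴᴴ * PZ S * Uᴴ) * PZ S') * (U * R)‖ ≤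
      B * (α / σ) := by
    have hα := hA _ hU.conjT S' S (by simpa using S.card_le_univ)
    have hα0 := (norm_nonneg _).trans hα
    have hR : ‖U * R‖ ≤ 1 / σ := by
      refine (norm_mul_le _ _).trans ?_
      rw [le_div_iff₀ hσ]
      nlinarith [norm_nonneg R, mul_nonneg hσ.le (norm_nonneg R)]
    calc _ ≤ ‖HI S s * Uᴴ‖ * ‖(diagonal p : Op N)‖ * ‖HI S' x * (Uᴴᴴ * PZ S * Uᴴ) * PZ S'‖ *
          ‖U * R‖ := norm_mul₄_le
      _ ≤ 1 * B * α * (1 / σ) := by gcongr
      _ = _ := by ring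
  have n4 : ‖HI S s * Uᴴ * diagonal p * (U * PZ S) * u‖ ≤ B * β := by
    have h5 := hp1.sand_le (HI S s * Uᴴ) (U * PZ S) (β := β) fun τ hτ => by
      simpa only [Matrix.mul_assoc] using hF U hU S τ hτ
    calc _ ≤ _ := norm_mul_le _ _
      _ ≤ B * β * 1 := by gcongr; exact (norm_nonneg _).trans h5
      _ = _ := mul_one _
  rw [e1]
  exact norm_add_le_of_le (norm_sub_le_of_le (norm_add_le_of_le n1 n2) n3) n4

theorem rounds {t : ℕ} {Λ : ℝ} (hΛ : 1 ≤ Λ) (h : FL N t Λ) (j : ℕ) (l s : ℝ) (hl : 1 ≤ l)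
    (hs : 0 ≤ s) (hj : (120 * Λ * LL N ^ 2) ^ (j * (j + 1)) * N * l ^ j ≤ s ^ (j + 1)) :
    Bd N t N s (Real.exp (-l)) := by
  induction j generalizing l s with
  | zero => exact Bd.of_le (by simpa using hj) (Real.exp_pos _).le
  | succ j ih =>
    by_cases hsN : (N : ℝ) ≤ s
    · exact Bd.of_le hsN (Real.exp_pos _).le
    push Not at hsN
    have hL := two_le_LL (N := N)
    set L := LL N with hLdef
    set K := 120 * Λ * L ^ 2 with hK
    have hK1 : 480 ≤ K := by nlinarith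
    have hN0 : (0 : ℝ) < N := by linarith
    have hKl : K * l ≤ s := by
      refine le_of_pow_le_pow_left₀ (n := j + 1) (by omega) hs ?_
      have h1 : K ^ (j + 1) ≤ K ^ ((j + 1) * (j + 1 + 1)) :=
        pow_le_pow_right₀ (by linarith) (by nlinarith)
      have h2 : s ^ (j + 1 + 1) ≤ N * s ^ (j + 1) := by rw [pow_succ']; gcongr
      refine le_of_mul_le_mul_left ?_ hN0
      calc N * (K * l) ^ (j + 1) = K ^ (j + 1) * N * l ^ (j + 1) := by rw [mul_pow]; ring
        _ ≤ K ^ ((j + 1) * (j + 1 + 1)) * N * l ^ (j + 1) := by gcongr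
        _ ≤ _ := hj.trans h2
    have hs0 : 0 < s := by nlinarith
    set m := 2 * s / K with hm
    have hmK : m * K = 2 * s := by rw [hm]; field_simp
    have hml : 2 * l ≤ m := by rw [hm, le_div_iff₀ (by linarith)]; linarith
    have hms : m ≤ s := by nlinarith
    set x := m ^ 2 / l with hx
    have hxl : l * x = m ^ 2 := by rw [hx]; field_simp
    have hsq : √(l * x) = m := by rw [hxl, Real.sqrt_sq (by linarith)]
    have hx2 : 2 * l ≤ x := by rw [hx, le_div_iff₀ (by linarith)]; nlinarith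
    have hxN : x ≤ (N : ℝ) ^ 2 := by
      have : x ≤ m ^ 2 := div_le_self (by positivity) hl
      nlinarith
    set E := 30 * L ^ 2 * m with hE
    have hEs : 2 * Λ * E = s := by rw [hE]; nlinarith
    have hE1 : 1 ≤ E := by nlinarith
    have hEs' : E ≤ s := by nlinarith
    have hA : Bd N t N x (Real.exp (-E)) := by
      refine ih E x hE1 (by linarith) ?_
      have hpos : 0 < (K ^ 2 * l) ^ (j + 1) := by positivity
      refine le_of_mul_le_mul_left ?_ hpos
      have h1 : s ^ 2 ≤ K ^ 2 * l * x := by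
        rw [mul_assoc, hxl, ← mul_pow, mul_comm K, hmK]; nlinarith
      calc (K ^ 2 * l) ^ (j + 1) * (K ^ (j * (j + 1)) * N * E ^ j)
          = K ^ ((j + 1) * (j + 1 + 1)) * N * l ^ (j + 1) * E ^ j := by ring
        _ ≤ s ^ (j + 1 + 1) * s ^ j := by gcongr
        _ = (s ^ 2) ^ (j + 1) := by ring
        _ ≤ (K ^ 2 * l * x) ^ (j + 1) := by gcongr
        _ = _ := by rw [mul_pow]
    set D : ℕ := ⌊26 * L * m⌋₊ with hD
    have hD1 : (D : ℝ) ≤ 26 * L * m := Nat.floor_le (by positivity)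
    have hDL : D * L ≤ 26 * L ^ 2 * m := by nlinarith
    have hL2 : 4 * m ≤ L ^ 2 * m := by nlinarith
    have hF : Bd N t D s (Real.exp (-E)) := h D E s hE1 (by nlinarith)
    have key := boot_step (x := x) (σ := Real.exp (2 * (-l - 2))) (η := Real.exp (-l - 2))
      (B := Real.exp (D * L)) (by linarith) (Real.exp_pos _) (Real.exp_pos _).le hA hF fun S => by
        obtain ⟨D', p, h1, h2, h3⟩ := exists_approx S hl hx2 hxN
        rw [hsq] at h1
        have h4 : D' ≤ D := Nat.le_floor h1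
        refine ⟨p, h2.mono h4 ?_, h3⟩
        have : (D' : ℝ) ≤ D := by exact_mod_cast h4
        gcongr
    refine key.mono le_rfl ?_
    have e1 : √(Real.exp (2 * (-l - 2))) = Real.exp (-l - 2) := by
      rw [← Real.exp_half]; congr 1; ring
    have e2 : Real.exp (D * L) * (Real.exp (-E) / Real.exp (2 * (-l - 2))) ≤ Real.exp (-l - 2) := by
      rw [← Real.exp_sub, ← Real.exp_add, Real.exp_le_exp]; linarith
    have e3 : Real.exp (D * L) * Real.exp (-E) ≤ Real.exp (-l - 2) := by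
      rw [← Real.exp_add, Real.exp_le_exp]; linarith
    have e4 : 4 * Real.exp (-l - 2) ≤ Real.exp (-l) := by
      have h1 : Real.exp (-l) = Real.exp 1 * Real.exp 1 * Real.exp (-l - 2) := by
        rw [← Real.exp_add, ← Real.exp_add]; congr 1; ring
      have h2 : 2 ≤ Real.exp 1 := by linarith [Real.add_one_le_exp 1]
      rw [h1]
      gcongr
      nlinarith
    linarith

theorem PL_of_FL {t j : ℕ} {Λ ρ : ℝ} (hΛ : 1 ≤ Λ) (h : FL N t Λ) (hρ : 0 ≤ ρ)
    (hN : (N : ℝ) ≤ ρ ^ (j + 1)) : PL N t ((120 * Λ * LL N ^ 2) ^ j * ρ) := by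
  intro l s hl hs
  have hL := two_le_LL (N := N)
  have h0 : 0 ≤ (120 * Λ * LL N ^ 2) ^ j * ρ * l := by positivity
  refine rounds hΛ h j l s hl (h0.trans hs) ?_
  have h1 : l ^ j ≤ l ^ (j + 1) := pow_le_pow_right₀ hl (Nat.le_succ j)
  calc _ ≤ (120 * Λ * LL N ^ 2) ^ (j * (j + 1)) * ρ ^ (j + 1) * l ^ (j + 1) := by gcongr
    _ = ((120 * Λ * LL N ^ 2) ^ j * ρ * l) ^ (j + 1) := by
        rw [mul_pow _ l, mul_pow _ ρ, ← pow_mul]
    _ ≤ _ := by gcongr

end Crest.Agent.R344
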