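import Crest.Agent.R344.Defs
import Crest.Prelude.Def_QCircuit

/-! Row 344: circuits of the statement are `Circ`. -/

set_option autoImplicit false

namespace Crest.Agent.R344

open Matrix Crest.Quantum.Circuit

variable {N : ℕ}

/-- Normal form with support `Z`. -/
private def NF (Z : Finset (Fin N)) (M : Op N) : Prop :=
  ∃ (A B : Fin N → Matrix Bool Bool ℂ) (G : List (Finset (Fin N))),
    (∀ i, A i ∈ Matrix.unitaryGroup Bool ℂ) ∧ (∀ i, B i ∈ Matrix.unitaryGroup Bool ℂ) ∧
    (∀ i ∉ Z, A i = 1) ∧ (∀ i ∉ Z, B i = 1) ∧ G.Pairwise Disjoint ∧ (∀ g ∈ G, g ⊆ Z) ∧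
    M = tens B * diagonal (sg G) * tens A

private theorem sg_append (G G' : List (Finset (Fin N))) : sg (G ++ G') = sg G * sg G' := by
  simp [sg]

private theorem sg_congr {Z : Finset (Fin N)} {G : List (Finset (Fin N))} (hG : ∀ g ∈ G, g ⊆ Z)
    {x y : Str N} (h : ∀ i ∈ Z, x i = y i) : sg G x = sg G y := by
  induction G with
  | nil => simp [sg_nil]
  | cons g G ih =>
    have h1 : e g x = e g y := by
      have : (∀ i ∈ g, x i = false) ↔ ∀ i ∈ g, y i = false :=
        forall₂_congr fun i hi => by rw [h i (hG g (by simp) hi)]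
      simp only [e, this]
    simp only [sg_cons, Pi.mul_apply, Pi.sub_apply, Pi.smul_apply, Pi.one_apply, h1,
      ih fun g' hg' => hG g' (by simp [hg'])]

private theorem NF.mul {Z Z' : Finset (Fin N)} {M M' : Op N} (h : NF Z M) (h' : NF Z' M')
    (hd : Disjoint Z Z') : NF (Z ∪ Z') (M' * M) := by
  obtain ⟨A, B, G, hA, hB, hA1, hB1, hG, hGZ, rfl⟩ := h
  obtain ⟨A', B', G', hA', hB', hA1', hB1', hG', hGZ', rfl⟩ := h'
  refine ⟨fun i => A' i * A i, fun i => B' i * B i, G' ++ G, fun i => mul_mem (hA' i) (hA i),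
    fun i => mul_mem (hB' i) (hB i), fun i hi => ?_, fun i hi => ?_, ?_, fun g hg => ?_, ?_⟩
  · rw [Finset.mem_union, not_or] at hi
    simp [hA1 i hi.1, hA1' i hi.2]
  · rw [Finset.mem_union, not_or] at hi
    simp [hB1 i hi.1, hB1' i hi.2]
  · exact List.pairwise_append.2 ⟨hG', hG, fun a ha b hb =>
      hd.symm.mono (hGZ' a ha) (hGZ b hb)⟩
  · rcases List.mem_append.1 hg with hg | hg
    · exact (hGZ' g hg).trans Finset.subset_union_right
    · exact (hGZ g hg).trans Finset.subset_union_left
  · have c1 : tens A' * tens B = tens B * tens A' := by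
      rw [tens_mul, tens_mul]
      congr 1
      funext i
      by_cases hi : i ∈ Z
      · simp [hA1' i (Finset.disjoint_left.1 hd hi)]
      · simp [hB1 i hi]
    have c2 : diagonal (sg G) * tens A' = tens A' * diagonal (sg G) :=
      comm_diag_tens hA1' fun x y h => sg_congr hGZ fun i hi => h i (Finset.disjoint_left.1 hd hi)
    have c3 : diagonal (sg G') * tens B = tens B * diagonal (sg G') :=
      comm_diag_tens hB1 fun x y h => sg_congr hGZ' fun i hi => h i (Finset.disjoint_right.1 hd hi)
    have c4 : (diagonal (sg (G' ++ G)) : Op N) = diagonal (sg G') * diagonal (sg G) := by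
      rw [diagonal_mul_diagonal, sg_append]; rfl
    rw [← tens_mul, ← tens_mul, c4]
    calc tens B' * diagonal (sg G') * tens A' * (tens B * diagonal (sg G) * tens A)
        = tens B' * diagonal (sg G') * (tens A' * tens B) * diagonal (sg G) * tens A := by
          simp only [Matrix.mul_assoc]
      _ = tens B' * (diagonal (sg G') * tens B) * (tens A' * diagonal (sg G)) * tens A := by
          rw [c1]; simp only [Matrix.mul_assoc]
      _ = _ := by rw [c3, ← c2]; simp only [Matrix.mul_assoc]

private theorem tens_mulVec (V : Fin N → Matrix Bool Bool ℂ) (t : Fin N)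
    (hV : ∀ j, j ≠ t → ∀ a b, a ≠ b → V j a b = 0) (ψ : Str N → ℂ) (σ : Str N) :
    (tens V *ᵥ ψ) σ = (∏ j ∈ Finset.univ.erase t, V j (σ j) (σ j)) *
      ∑ b, V t (σ t) b * ψ (Function.update σ t b) := by
  simp only [mulVec, dotProduct, tens, of_apply]
  rw [← Finset.sum_subset (Finset.subset_univ (Finset.univ.image (Function.update σ t))),
    Finset.sum_image fun a _ b _ h => Function.update_injective σ t h, Finset.mul_sum]
  · refine Finset.sum_congr rfl fun b _ => ?_
    rw [← Finset.mul_prod_erase _ _ (Finset.mem_univ t), Function.update_self,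
      Finset.prod_congr rfl fun j hj => by rw [Function.update_of_ne (Finset.ne_of_mem_erase hj)]]
    ring
  · intro y _ hy
    have : ∃ j, j ≠ t ∧ σ j ≠ y j := by
      by_contra hc
      push Not at hc
      refine hy (Finset.mem_image.2 ⟨y t, Finset.mem_univ _, funext fun j => ?_⟩)
      by_cases hj : j = t
      · subst hj; simp
      · rw [Function.update_of_ne hj, hc j hj]
    obtain ⟨j, hj, hne⟩ := this
    rw [Finset.prod_eq_zero (Finset.mem_univ j) (hV j hj _ _ hne), zero_mul]

private def Xg : Matrix Bool Bool ℂ := Matrix.of fun a b => if a = b then 0 else 1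

private noncomputable def cc : ℂ := (((√2)⁻¹ : ℝ) : ℂ)

private theorem cc_mul : cc * cc = 1 / 2 := by
  unfold cc
  rw [← Complex.ofReal_mul, ← mul_inv, Real.mul_self_sqrt (by norm_num)]
  norm_num

private theorem conj_cc : (starRingEnd ℂ) cc = cc := Complex.conj_ofReal _

private noncomputable def Hg : Matrix Bool Bool ℂ :=
  Matrix.of fun a b => if a = false ∧ b = true then -cc else cc

private theorem Xg_mem : Xg ∈ Matrix.unitaryGroup Bool ℂ := by
  rw [Matrix.mem_unitaryGroup_iff]
  ext a b
  cases a <;> cases b <;> simp [Xg, mul_apply, star_apply]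

private theorem Hg_mem : Hg ∈ Matrix.unitaryGroup Bool ℂ := by
  rw [Matrix.mem_unitaryGroup_iff]
  ext a b
  cases a <;> cases b <;> simp [Hg, mul_apply, star_apply, conj_cc, cc_mul] <;> norm_num

private theorem Xg_conj (a b : Bool) :
    (Xgᴴ * diagonal (fun b : Bool => if b = false then (1 : ℂ) else 0) * Xg) a b =
      if a = true ∧ b = true then 1 else 0 := by
  cases a <;> cases b <;> simp [Xg, mul_apply, diagonal_apply]

private theorem Hg_conj (a b : Bool) :
    (Hgᴴ * diagonal (fun b : Bool => if b = false then (1 : ℂ) else 0) * Hg) a b =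
      if a = b then 1 / 2 else -(1 / 2) := by
  cases a <;> cases b <;> simp [Hg, mul_apply, diagonal_apply, conj_cc, cc_mul]

private theorem exists_gate (g : Gate N) (hg : g.WellFormed) :
    ∃ M : Op N, NF g.support M ∧ ∀ ψ, g.apply ψ = M *ᵥ ψ := by
  cases g with
  | oneQubit i U =>
    refine ⟨tens (Function.update (fun _ => 1) i U), ⟨fun _ => 1,
      Function.update (fun _ => 1) i U, [], fun _ => one_mem _, fun j => ?_, fun _ _ => rfl,
      fun j hj => ?_, List.Pairwise.nil, by simp, ?_⟩, fun ψ => ?_⟩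
    · by_cases hj : j = i
      · subst hj; rw [Function.update_self]; exact hg
      · rw [Function.update_of_ne hj]; exact one_mem _
    · exact Function.update_of_ne (by simpa [Gate.support] using hj) _ _
    · rw [tens_one, sg_nil, Matrix.mul_one]
      exact (Matrix.mul_one _).symm
    · funext σ
      rw [tens_mulVec _ i fun j hj a b hab => by rw [Function.update_of_ne hj, one_apply_ne hab],
        Finset.prod_eq_one fun j hj => by
          rw [Function.update_of_ne (Finset.ne_of_mem_erase hj), one_apply_eq],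
        one_mul, Function.update_self]
      rfl
  | toffoli S t =>
    have ht : t ∉ S := hg
    let A : Fin N → Matrix Bool Bool ℂ := fun i => if i = t then Hg else if i ∈ S then Xg else 1
    have hA : ∀ i, A i ∈ Matrix.unitaryGroup Bool ℂ := fun i => by
      simp only [A]
      split_ifs
      exacts [Hg_mem, Xg_mem, one_mem _]
    have hA1 : ∀ i ∉ insert t S, A i = 1 := fun i hi => by
      rw [Finset.mem_insert, not_or] at hi
      simp only [A, if_neg hi.1, if_neg hi.2]
    refine ⟨_, ⟨A, fun i => (A i)ᴴ, [insert t S], hA, fun i => Unitary.star_mem (hA i), hA1,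
      fun i hi => by simp only [hA1 i hi, conjTranspose_one], List.pairwise_singleton _ _,
      fun g hg => by rw [List.mem_singleton.1 hg]; exact subset_rfl, rfl⟩, fun ψ => ?_⟩
    have h1 : (diagonal (sg [insert t S]) : Op N) = 1 - (2 : ℂ) • PZ (insert t S) := by
      rw [sg_cons, sg_nil, mul_one, PZ, ← diagonal_one, ← diagonal_smul, diagonal_sub]
      congr 1
      funext x
      simp
    have h2 : tens (fun i => (A i)ᴴ) * tens A = 1 := by
      rw [← tens_conjT]; exact IsLoc.unitary ⟨A, hA, rfl⟩
    rw [h1, Matrix.mul_sub, Matrix.sub_mul, Matrix.mul_one, h2, Matrix.mul_smul, Matrix.smul_mul,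
      PZ_eq_tens, tens_mul, tens_mul, sub_mulVec, one_mulVec, smul_mulVec]
    funext σ
    have h3 : ∀ j, j ≠ t → ∀ a b, ((A j)ᴴ * (if j ∈ insert t S then
        diagonal (fun b : Bool => if b = false then (1 : ℂ) else 0) else 1) * A j) a b =
        if a = b ∧ (j ∈ S → a = true) then 1 else 0 := by
      intro j hj a b
      by_cases hS : j ∈ S
      · simp only [A, if_neg hj, if_pos hS, if_pos (Finset.mem_insert_of_mem hS), Xg_conj]
        cases a <;> cases b <;> simp [hS]
      · simp [A, hj, one_apply, hS]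
    rw [Pi.sub_apply, Pi.smul_apply,
      tens_mulVec _ t fun j hj a b hab => by rw [h3 j hj, if_neg fun h => hab h.1],
      Finset.prod_congr rfl fun j hj => h3 j (Finset.ne_of_mem_erase hj) _ _, Finset.prod_boole]
    simp only [A, if_pos rfl, if_pos (Finset.mem_insert_self t S), Hg_conj, Gate.apply]
    have h4 : (∀ j ∈ Finset.univ.erase t, True ∧ (j ∈ S → σ j = true)) ↔ ∀ i ∈ S, σ i = true :=
      ⟨fun h i hi => (h i (Finset.mem_erase.2 ⟨fun e => ht (e ▸ hi), Finset.mem_univ _⟩)).2 hi,
        fun h j _ => ⟨trivial, h j⟩⟩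
    by_cases hS : ∀ i ∈ S, σ i = true
    · rw [if_pos (h4.2 hS), decide_eq_true hS]
      have h5 : ψ σ = ψ (Function.update σ t (σ t)) := by rw [Function.update_eq_self]
      rw [h5]
      cases σ t <;> simp <;> ring
    · rw [if_neg fun h => hS (h4.1 h), decide_eq_false hS]
      simp

private theorem exists_NF (L : List (Gate N)) (hL : LayerWF L) :
    ∃ (Z : Finset (Fin N)) (M : Op N), (∀ i ∈ Z, ∃ g ∈ L, i ∈ g.support) ∧ NF Z M ∧
      ∀ ψ, applyLayer L ψ = M *ᵥ ψ := by
  induction L with
  | nil =>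
    refine ⟨∅, 1, by simp, ⟨fun _ => 1, fun _ => 1, [], fun _ => one_mem _, fun _ => one_mem _,
      fun _ _ => rfl, fun _ _ => rfl, List.Pairwise.nil, by simp, ?_⟩, fun ψ => by simp [applyLayer]⟩
    rw [tens_one, sg_nil, Matrix.mul_one, Matrix.one_mul]; rfl
  | cons g L ih =>
    obtain ⟨h1, h2⟩ := hL
    rw [List.pairwise_cons] at h2
    obtain ⟨Z, M, hZ, hM, hψ⟩ := ih ⟨fun g' hg' => h1 g' (by simp [hg']), h2.2⟩
    obtain ⟨M₀, hM₀, hψ₀⟩ := exists_gate g (h1 g (by simp))
    refine ⟨g.support ∪ Z, M * M₀, fun i hi => ?_, hM₀.mul hM ?_, fun ψ => ?_⟩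
    · rcases Finset.mem_union.1 hi with hi | hi
      · exact ⟨g, by simp, hi⟩
      · obtain ⟨g', hg', hi'⟩ := hZ i hi
        exact ⟨g', by simp [hg'], hi'⟩
    · refine Finset.disjoint_left.2 fun i hi hiZ => ?_
      obtain ⟨g', hg', hi'⟩ := hZ i hiZ
      exact Finset.disjoint_left.1 (h2.1 g' hg') hi hi'
    · rw [← mulVec_mulVec, ← hψ₀, ← hψ]; rfl

/-- A layer in normal form.  Induction on the list with the invariant: the layer acts as
`tens B * diagonal (sg G) * tens A` with `A i`, `B i` unitary and equal to `1` off the union `Z` of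
the supports, `G` pairwise disjoint and every member of `G` inside `Z`.  A one-qubit gate is
`tens (update 1 i U)`.  A Toffoli gate is `tens Aᴴ * diagonal (1 - 2 • e supp) * tens A` with
`A i = X` on the controls and `A t = (√2)⁻¹ • !![1, -1; 1, 1]` on the target (its first row is
`⟨-|`).  Commute the factors with `tens_mul` and `comm_diag_tens`. -/
theorem exists_layer (L : List (Gate N)) (hL : LayerWF L) :
    ∃ W D V : Op N, IsLoc W ∧ IsRefl D ∧ IsLoc V ∧ ∀ ψ, applyLayer L ψ = (W * D * V) *ᵥ ψ := by
  obtain ⟨Z, M, -, ⟨A, B, G, hA, hB, -, -, hG, -, rfl⟩, hψ⟩ := exists_NF L hL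
  exact ⟨tens B, diagonal (sg G), tens A, ⟨B, hB, rfl⟩, ⟨G, hG, rfl⟩, ⟨A, hA, rfl⟩, hψ⟩

theorem exists_circ (C : List (List (Gate N))) (hC : CircuitWF C) :
    ∃ U : Op N, Circ C.length U ∧ ∀ ψ, runCircuit C ψ = U *ᵥ ψ := by
  induction C using List.reverseRecOn with
  | nil => exact ⟨1, .loc IsLoc.one, fun ψ => by simp [runCircuit]⟩
  | append_singleton C L ih =>
    obtain ⟨U, hU, hr⟩ := ih fun L' h => hC L' (by simp [h])
    obtain ⟨W, D, V, hW, hD, hV, hL⟩ := exists_layer L (hC L (by simp))
    refine ⟨W * D * (V * U), by simpa using Circ.step (hU.loc_mul hV) hD hW, fun ψ => ?_⟩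
    have := hr ψ
    simp only [runCircuit] at this ⊢
    rw [List.foldl_append, this, List.foldl_cons, List.foldl_nil, hL, mulVec_mulVec]
    simp only [Matrix.mul_assoc]

end Crest.Agent.R344
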