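import Mathlib

/-! Row 344 (parity is not in QAC0): definitions and basic algebra.

Outline.  For a circuit `U` of depth `t` on `N` wires put `P = PZ S` (the wires of `S` carry `0`),
`P' = Uᴴ * PZ S' * U` and let `HI S s` be the projector on Hamming weight `> s` on `S`.
`Bd N t r s β` says `‖HI S s * P' * P‖ ≤ β` whenever `|S'| ≤ r`.
* `FL` (few-site locality) holds trivially in depth `0`.
* `FL → PL` (projector locality, `S'` arbitrary): a bootstrap.  The class of circuits is closed under
  adjoints, so a tail bound for the weight created by `P'` on the range of `P` is also a tail bound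
  for the weight created by `P` on the range of `P'`.  On vectors whose weight is at most `x` up to a
  small tail, `P` is a polynomial of degree `≈ √(x ℓ)` in the weight, up to `exp (-ℓ)`; its monomials
  are few-site projectors.  The `j`-th round gives the tail `N ^ (1/(j+1)) ℓ ^ (j/(j+1))`.
* `PL t → FL (t+1)`: expand the at most `r` reflections that touch `S'`.
* Parity would move weight `0` to weight `n` in a suitable frame. -/

set_option autoImplicit false

namespace Crest.Agent.R344

open Matrix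
open scoped Matrix.Norms.L2Operator

abbrev Str (N : ℕ) : Type := Fin N → Bool
abbrev Op (N : ℕ) : Type := Matrix (Str N) (Str N) ℂ

variable {N : ℕ}

/-- Hamming weight on `S`. -/
def wt (S : Finset (Fin N)) (x : Str N) : ℕ := (S.filter fun i => x i = true).card

/-- Indicator of vanishing on `S`. -/
def e (S : Finset (Fin N)) : Str N → ℂ := fun x => if ∀ i ∈ S, x i = false then 1 else 0

/-- Projector on the strings vanishing on `S`. -/
def PZ (S : Finset (Fin N)) : Op N := diagonal (e S)

/-- Projector on weight `> s` on `S`. -/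
noncomputable def HI (S : Finset (Fin N)) (s : ℝ) : Op N :=
  diagonal fun x => if s < wt S x then 1 else 0

/-- Tensor product of one-qubit operators. -/
def tens (V : Fin N → Matrix Bool Bool ℂ) : Op N := Matrix.of fun x y => ∏ i, V i (x i) (y i)

/-- Local unitaries. -/
def IsLoc (W : Op N) : Prop := ∃ V, (∀ i, V i ∈ Matrix.unitaryGroup Bool ℂ) ∧ W = tens V

/-- The sign function of a list of reflections. -/
def sg (G : List (Finset (Fin N))) : Str N → ℂ := (G.map fun g => 1 - 2 • e g).prod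

/-- Layers of reflections with disjoint supports. -/
def IsRefl (D : Op N) : Prop := ∃ G : List (Finset (Fin N)), G.Pairwise Disjoint ∧ D = diagonal (sg G)

/-- Circuits with `t` layers of reflections. -/
inductive Circ : ℕ → Op N → Prop
  | loc {W : Op N} : IsLoc W → Circ 0 W
  | step {t : ℕ} {U D W : Op N} : Circ t U → IsRefl D → IsLoc W → Circ (t + 1) (W * D * U)

/-- The basic bound. -/
def Bd (N t r : ℕ) (s β : ℝ) : Prop :=
  ∀ U : Op N, Circ t U → ∀ S S' : Finset (Fin N), S'.card ≤ r →
    ‖HI S s * (Uᴴ * PZ S' * U) * PZ S‖ ≤ β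

/-- Few-site locality. -/
def FL (N t : ℕ) (Λ : ℝ) : Prop :=
  ∀ (r : ℕ) (l s : ℝ), 1 ≤ l → Λ * (r + l) ≤ s → Bd N t r s (Real.exp (-l))

/-- Projector locality. -/
def PL (N t : ℕ) (Λ : ℝ) : Prop :=
  ∀ l s : ℝ, 1 ≤ l → Λ * l ≤ s → Bd N t N s (Real.exp (-l))

/-- `f` is a combination of indicators `e τ`, `|τ| ≤ D`, of total weight at most `B`
(in dual form). -/
def Low (D : ℕ) (B : ℝ) (f : Str N → ℂ) : Prop :=
  ∀ (q : Seminorm ℂ (Str N → ℂ)) (β : ℝ), (∀ τ : Finset (Fin N), τ.card ≤ D → q (e τ) ≤ β) →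
    q f ≤ B * β

/-- The logarithmic factor. -/
noncomputable def LL (N : ℕ) : ℝ := Real.log (8 * N + 8)

/-! ### Basic lemmas -/

theorem exp_LL : Real.exp (LL N) = 8 * N + 8 := Real.exp_log (by positivity)

theorem two_le_LL : 2 ≤ LL N := by
  rw [LL, Real.le_log_iff_exp_le (by positivity)]
  have h := Real.exp_one_lt_d9
  have h2 : Real.exp 2 = Real.exp 1 * Real.exp 1 := by rw [← Real.exp_add]; norm_num
  have h0 : (0 : ℝ) ≤ N := Nat.cast_nonneg N
  have := Real.exp_pos 1
  nlinarith

theorem wt_le (S : Finset (Fin N)) (x : Str N) : wt S x ≤ N :=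
  (Finset.card_filter_le _ _).trans (by simpa using S.card_le_univ)

theorem wt_eq_zero {S : Finset (Fin N)} {x : Str N} : wt S x = 0 ↔ ∀ i ∈ S, x i = false := by
  simp [wt, Finset.filter_eq_empty_iff]

theorem e_eq (S : Finset (Fin N)) (x : Str N) : e S x = if wt S x = 0 then 1 else 0 := by
  simp only [e, wt_eq_zero]

theorem e_empty : e (∅ : Finset (Fin N)) = 1 := by funext x; simp [e]

theorem e_mul_e (S T : Finset (Fin N)) : e S * e T = e (S ∪ T) := by
  funext x
  simp only [e, Pi.mul_apply, Finset.mem_union, or_imp, forall_and]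
  split_ifs <;> simp_all

theorem star_e (S : Finset (Fin N)) : star (e S) = e S := by
  funext x; simp only [e, Pi.star_apply]; split_ifs <;> simp

theorem norm_diagonal_le {f : Str N → ℂ} {c : ℝ} (hc : 0 ≤ c) (h : ∀ x, ‖f x‖ ≤ c) :
    ‖(diagonal f : Op N)‖ ≤ c := by
  rw [l2_opNorm_diagonal]; exact (pi_norm_le_iff_of_nonneg hc).mpr h

theorem PZ_conjT (S : Finset (Fin N)) : (PZ S)ᴴ = PZ S := by
  rw [PZ, diagonal_conjTranspose, star_e]

theorem PZ_mul_self (S : Finset (Fin N)) : PZ S * PZ S = PZ S := by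
  rw [PZ, diagonal_mul_diagonal]
  congr 1
  exact (e_mul_e S S).trans (by rw [Finset.union_self])

theorem norm_PZ_le (S : Finset (Fin N)) : ‖PZ S‖ ≤ 1 :=
  norm_diagonal_le zero_le_one fun x => by simp only [e]; split_ifs <;> simp

theorem norm_HI_le (S : Finset (Fin N)) (s : ℝ) : ‖HI S s‖ ≤ 1 :=
  norm_diagonal_le zero_le_one fun x => by split_ifs <;> simp

theorem norm_one_sub_HI_le (S : Finset (Fin N)) (s : ℝ) : ‖1 - HI S s‖ ≤ 1 := by
  rw [HI, ← diagonal_one, diagonal_sub]
  exact norm_diagonal_le zero_le_one fun x => by split_ifs <;> simp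

theorem HI_of_le (S : Finset (Fin N)) {s : ℝ} (hs : (N : ℝ) ≤ s) : HI S s = 0 := by
  rw [HI, ← diagonal_zero]
  congr 1
  funext x
  have : (wt S x : ℝ) ≤ N := by exact_mod_cast wt_le S x
  rw [if_neg (by linarith)]

theorem tens_mul (V W : Fin N → Matrix Bool Bool ℂ) :
    tens V * tens W = tens fun i => V i * W i := by
  ext x y
  simp only [tens, mul_apply, of_apply]
  rw [Fintype.prod_sum]
  exact Finset.sum_congr rfl fun z _ => (Finset.prod_mul_distrib).symm

theorem tens_one : tens (fun _ : Fin N => (1 : Matrix Bool Bool ℂ)) = 1 := by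
  ext x y
  simp only [tens, of_apply, one_apply, Finset.prod_boole, Finset.mem_univ, true_imp_iff,
    funext_iff]

theorem tens_conjT (V : Fin N → Matrix Bool Bool ℂ) : (tens V)ᴴ = tens fun i => (V i)ᴴ := by
  ext x y
  simp [tens, conjTranspose_apply]

/-- Entries of a tensor product vanish between strings that differ at a trivial wire. -/
theorem tens_apply_eq_zero {V : Fin N → Matrix Bool Bool ℂ} {x y : Str N} {i : Fin N}
    (hi : V i = 1) (hxy : x i ≠ y i) : tens V x y = 0 :=
  Finset.prod_eq_zero (Finset.mem_univ i) (by rw [hi, one_apply_ne hxy])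

/-- A diagonal matrix commutes with a tensor product acting on wires it does not read. -/
theorem comm_diag_tens {τ : Finset (Fin N)} {V : Fin N → Matrix Bool Bool ℂ}
    (hV : ∀ i ∉ τ, V i = 1) {f : Str N → ℂ}
    (hf : ∀ x y : Str N, (∀ i ∉ τ, x i = y i) → f x = f y) :
    diagonal f * tens V = tens V * diagonal f := by
  ext x y
  rw [diagonal_mul, mul_diagonal]
  by_cases h : ∀ i ∉ τ, x i = y i
  · rw [hf x y h, mul_comm]
  · push Not at h
    obtain ⟨i, hi, hxy⟩ := h
    rw [tens_apply_eq_zero (hV i hi) hxy, mul_zero, zero_mul]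

theorem PZ_eq_tens (τ : Finset (Fin N)) :
    PZ τ = tens fun i => if i ∈ τ then diagonal (fun b => if b = false then 1 else 0) else 1 := by
  have h : ∀ i, (if i ∈ τ then diagonal (fun b : Bool => if b = false then (1 : ℂ) else 0) else 1) =
      diagonal fun b => if (i ∈ τ → b = false) then 1 else 0 := by
    intro i
    by_cases hi : i ∈ τ <;> simp [hi]
  ext x y
  simp only [PZ, tens, of_apply, h, diagonal_apply, e]
  by_cases hxy : x = y
  · subst hxy
    simp [Finset.prod_boole]
  · rw [if_neg hxy]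
    obtain ⟨i, hi⟩ := Function.ne_iff.mp hxy
    exact (Finset.prod_eq_zero (Finset.mem_univ i) (if_neg hi)).symm

theorem IsLoc.one : IsLoc (1 : Op N) := ⟨fun _ => 1, fun _ => one_mem _, tens_one.symm⟩

theorem IsLoc.mul {V W : Op N} (hV : IsLoc V) (hW : IsLoc W) : IsLoc (V * W) := by
  obtain ⟨A, hA, rfl⟩ := hV
  obtain ⟨B, hB, rfl⟩ := hW
  exact ⟨_, fun i => mul_mem (hA i) (hB i), tens_mul A B⟩

theorem IsLoc.conjT {V : Op N} (hV : IsLoc V) : IsLoc Vᴴ := by
  obtain ⟨A, hA, rfl⟩ := hV
  exact ⟨_, fun i => Unitary.star_mem (hA i), tens_conjT A⟩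

theorem IsLoc.unitary {V : Op N} (hV : IsLoc V) : Vᴴ * V = 1 := by
  obtain ⟨A, hA, rfl⟩ := hV
  rw [tens_conjT, tens_mul, ← tens_one]
  congr 1
  funext i
  exact (hA i).1

theorem sg_nil : sg ([] : List (Finset (Fin N))) = 1 := rfl

theorem sg_cons (g : Finset (Fin N)) (G : List (Finset (Fin N))) :
    sg (g :: G) = (1 - 2 • e g) * sg G := by simp [sg]

theorem sg_mul_self (G : List (Finset (Fin N))) : sg G * sg G = 1 := by
  induction G with
  | nil => simp [sg_nil]
  | cons g G ih =>
    rw [sg_cons, mul_mul_mul_comm, ih, mul_one]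
    funext x
    simp only [e, Pi.mul_apply, Pi.sub_apply, Pi.one_apply, Pi.smul_apply]
    split_ifs <;> norm_num

theorem star_sg (G : List (Finset (Fin N))) : star (sg G) = sg G := by
  induction G with
  | nil => simp [sg_nil]
  | cons g G ih => rw [sg_cons, star_mul', ih, star_sub, star_nsmul, star_e, star_one]

theorem IsRefl.conjT {D : Op N} (hD : IsRefl D) : Dᴴ = D := by
  obtain ⟨G, -, rfl⟩ := hD
  rw [diagonal_conjTranspose, star_sg]

theorem IsRefl.mul_self {D : Op N} (hD : IsRefl D) : D * D = 1 := by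
  obtain ⟨G, -, rfl⟩ := hD
  rw [diagonal_mul_diagonal, ← diagonal_one]
  congr 1
  exact sg_mul_self G

theorem IsRefl.one : IsRefl (1 : Op N) := ⟨[], List.Pairwise.nil, by rw [sg_nil]; rfl⟩

theorem Circ.loc_mul {t : ℕ} {U V : Op N} (hU : Circ t U) (hV : IsLoc V) : Circ t (V * U) := by
  cases hU with
  | loc h => exact .loc (hV.mul h)
  | step h hD hW =>
    rw [← Matrix.mul_assoc, ← Matrix.mul_assoc]
    exact .step h hD (hV.mul hW)

theorem Circ.mul_loc {t : ℕ} {U V : Op N} (hU : Circ t U) (hV : IsLoc V) : Circ t (U * V) := by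
  induction hU with
  | loc h => exact .loc (h.mul hV)
  | step _ hD hW ih =>
    rw [Matrix.mul_assoc]
    exact .step ih hD hW

theorem Circ.step' {t : ℕ} {U D V : Op N} (hU : Circ t U) (hD : IsRefl D) (hV : IsLoc V) :
    Circ (t + 1) (U * D * V) := by
  induction hU with
  | loc h => exact .step (.loc hV) hD h
  | step _ hD' hW ih =>
    rw [Matrix.mul_assoc, Matrix.mul_assoc, ← Matrix.mul_assoc _ D V]
    exact .step ih hD' hW

theorem Circ.conjT {t : ℕ} {U : Op N} (hU : Circ t U) : Circ t Uᴴ := by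
  induction hU with
  | loc h => exact .loc h.conjT
  | step _ hD hW ih =>
    rw [conjTranspose_mul, conjTranspose_mul, hD.conjT, ← Matrix.mul_assoc]
    exact ih.step' hD hW.conjT

theorem Circ.unitary {t : ℕ} {U : Op N} (hU : Circ t U) : Uᴴ * U = 1 := by
  induction hU with
  | loc h => exact h.unitary
  | @step t U D W _ hD hW ih =>
    rw [conjTranspose_mul, conjTranspose_mul, hD.conjT]
    calc Uᴴ * (D * Wᴴ) * (W * D * U) = Uᴴ * (D * (Wᴴ * W) * D) * U := by
          simp only [Matrix.mul_assoc]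
      _ = 1 := by rw [hW.unitary, Matrix.mul_one, hD.mul_self, Matrix.mul_one, ih]

theorem Circ.unitary' {t : ℕ} {U : Op N} (hU : Circ t U) : U * Uᴴ = 1 :=
  mul_eq_one_comm.mp hU.unitary

theorem Circ.succ {t : ℕ} {U : Op N} (hU : Circ t U) : Circ (t + 1) U := by
  simpa using Circ.step hU IsRefl.one IsLoc.one

theorem Circ.mono {t t' : ℕ} {U : Op N} (hU : Circ t U) (h : t ≤ t') : Circ t' U := by
  induction h with
  | refl => exact hU
  | step _ ih => exact ih.succ

theorem Circ.norm_le {t : ℕ} {U : Op N} (hU : Circ t U) : ‖U‖ ≤ 1 := by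
  have h := l2_opNorm_conjTranspose_mul_self U
  rw [hU.unitary, norm_one] at h
  nlinarith [norm_nonneg U]

/-- The pulled back projector has norm at most one. -/
theorem Circ.norm_conj_le {t : ℕ} {U : Op N} (hU : Circ t U) (S : Finset (Fin N)) :
    ‖Uᴴ * PZ S * U‖ ≤ 1 := by
  have h1 := hU.norm_le
  have h2 := hU.conjT.norm_le
  have h3 := norm_PZ_le S
  calc ‖Uᴴ * PZ S * U‖ ≤ ‖Uᴴ‖ * ‖PZ S‖ * ‖U‖ := norm_mul₃_le
    _ ≤ 1 * 1 * 1 := by gcongr
    _ = 1 := by norm_num

theorem Bd.mono {t r r' : ℕ} {s β β' : ℝ} (h : Bd N t r s β) (hr : r' ≤ r) (hβ : β ≤ β') :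
    Bd N t r' s β' := fun U hU S S' hS => (h U hU S S' (hS.trans hr)).trans hβ

theorem Bd.of_le {t r : ℕ} {s β : ℝ} (hs : (N : ℝ) ≤ s) (hβ : 0 ≤ β) : Bd N t r s β := by
  intro U _ S S' _
  rw [HI_of_le S hs]
  simpa using hβ

theorem FL.mono {t : ℕ} {Λ Λ' : ℝ} (h : FL N t Λ) (hΛ : Λ ≤ Λ') : FL N t Λ' :=
  fun r l s hl hs => h r l s hl (le_trans (by gcongr) hs)

end Crest.Agent.R344
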