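import Crest.Agent.R344.Defs

/-! Row 344: low-degree functions and the approximation of `e S`. -/

set_option autoImplicit false

namespace Crest.Agent.R344

open Matrix

variable {N : ℕ}

theorem Low.of_e {D : ℕ} {τ : Finset (Fin N)} (h : τ.card ≤ D) : Low D 1 (e τ) :=
  fun q β hq => by simpa using hq τ h

theorem Low.beta_nonneg {D : ℕ} {q : Seminorm ℂ (Str N → ℂ)} {β : ℝ}
    (hq : ∀ τ : Finset (Fin N), τ.card ≤ D → q (e τ) ≤ β) : 0 ≤ β :=
  (apply_nonneg q _).trans (hq ∅ (by simp))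

theorem Low.mono {D D' : ℕ} {B B' : ℝ} {f : Str N → ℂ} (h : Low D B f) (hD : D ≤ D')
    (hB : B ≤ B') : Low D' B' f := fun q β hq =>
  (h q β fun τ hτ => hq τ (hτ.trans hD)).trans (by gcongr; exact Low.beta_nonneg hq)

theorem Low.one {D : ℕ} : Low D 1 (1 : Str N → ℂ) := e_empty ▸ Low.of_e (by simp)

theorem Low.add {D : ℕ} {B B' : ℝ} {f g : Str N → ℂ} (hf : Low D B f) (hg : Low D B' g) :
    Low D (B + B') (f + g) := fun q β hq => by
  have := map_add_le_add q f g
  linarith [hf q β hq, hg q β hq]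

theorem Low.smul {D : ℕ} {B : ℝ} {f : Str N → ℂ} (hf : Low D B f) (c : ℂ) :
    Low D (‖c‖ * B) (c • f) := fun q β hq => by
  rw [map_smul_eq_mul, mul_assoc]
  gcongr
  exact hf q β hq

theorem Low.sub {D : ℕ} {B B' : ℝ} {f g : Str N → ℂ} (hf : Low D B f) (hg : Low D B' g) :
    Low D (B + B') (f - g) := fun q β hq => by
  have := map_sub_le_add q f g
  linarith [hf q β hq, hg q β hq]

theorem Low.mul' {D D' E : ℕ} {B B' : ℝ} {f g : Str N → ℂ} (hf : Low D B f) (hg : Low D' B' g)
    (hE : ∀ τ τ' : Finset (Fin N), τ.card ≤ D → τ'.card ≤ D' → (τ ∪ τ').card ≤ E) :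
    Low E (B * B') (f * g) := fun q β hq => by
  have h1 : ∀ τ : Finset (Fin N), τ.card ≤ D → q (e τ * g) ≤ B' * β := fun τ hτ =>
    hg (q.comp (LinearMap.mulLeft ℂ (e τ))) β fun τ' hτ' => by
      simpa [e_mul_e] using hq _ (hE τ τ' hτ hτ')
  have := hf (q.comp (LinearMap.mulRight ℂ g)) (B' * β) fun τ hτ => by simpa using h1 τ hτ
  simpa [mul_assoc] using this

theorem Low.mul {D D' : ℕ} {B B' : ℝ} {f g : Str N → ℂ} (hf : Low D B f) (hg : Low D' B' g) :
    Low (D + D') (B * B') (f * g) :=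
  hf.mul' hg fun τ τ' h h' => (Finset.card_union_le _ _).trans (by omega)

theorem Low.norm_le {D : ℕ} {B : ℝ} {f : Str N → ℂ} (hf : Low D B f) (x : Str N) :
    ‖f x‖ ≤ B := by
  have := hf ((normSeminorm ℂ ℂ).comp (LinearMap.proj x)) 1 fun τ _ => by
    simp only [Seminorm.comp_apply, LinearMap.proj_apply, coe_normSeminorm, e]
    split_ifs <;> simp
  simpa using this

/-- The sign function of `r` reflections has weight `3 ^ r`. -/
theorem Low.sg (G : List (Finset (Fin N))) : Low N (3 ^ G.length) (sg G) := by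
  induction G with
  | nil => simpa [sg_nil] using Low.one
  | cons g G ih =>
    have h1 : Low N 3 (1 - 2 • e g) := by
      have h := (Low.one (D := N)).sub ((Low.of_e (D := N) (τ := g)
        (by simpa using g.card_le_univ)).smul 2)
      rw [show (2 : ℂ) • e g = 2 • e g from by rw [two_smul, two_smul]] at h
      exact h.mono le_rfl (by norm_num)
    rw [sg_cons, List.length_cons, pow_succ']
    exact h1.mul' ih fun τ τ' _ _ => by simpa using (τ ∪ τ').card_le_univ

/-- Chebyshev polynomials of the second kind. -/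
def cheb {R : Type*} [CommRing R] (y : R) : ℕ → R
  | 0 => 1
  | 1 => 2 * y
  | k + 2 => 2 * y * cheb y (k + 1) - cheb y k

theorem map_cheb {R R' : Type*} [CommRing R] [CommRing R'] (φ : R →+* R') (y : R) (k : ℕ) :
    φ (cheb y k) = cheb (φ y) k := by
  induction k using Nat.twoStepInduction with
  | zero => simp [cheb]
  | one => simp [cheb, map_ofNat]
  | more k h0 h1 => simp [cheb, h0, h1, map_ofNat]

theorem cheb_inv (y : ℝ) (k : ℕ) :
    cheb y (k + 1) ^ 2 - 2 * y * cheb y (k + 1) * cheb y k + cheb y k ^ 2 = 1 := by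
  induction k with
  | zero => simp only [cheb]; ring
  | succ k ih => rw [cheb]; linear_combination ih

theorem abs_cheb_le {y : ℝ} (hy : |y| ≤ 1) (k : ℕ) : |cheb y k| ≤ k + 1 := by
  induction k with
  | zero => simp [cheb]
  | succ k ih =>
    have h1 : y ^ 2 ≤ 1 := by rw [← sq_abs]; nlinarith [abs_nonneg y]
    have h2 : |cheb y (k + 1) - y * cheb y k| ≤ 1 := by
      rw [← sq_le_one_iff_abs_le_one]
      nlinarith [cheb_inv y k, mul_nonneg (sub_nonneg.mpr h1) (sq_nonneg (cheb y k))]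
    have h3 : |y * cheb y k| ≤ |cheb y k| := by
      rw [abs_mul]; exact mul_le_of_le_one_left (abs_nonneg _) hy
    have h4 := abs_add_le (cheb y (k + 1) - y * cheb y k) (y * cheb y k)
    rw [sub_add_cancel] at h4
    push_cast
    linarith

theorem le_cheb {y r : ℝ} (hr : 0 ≤ r) (h : r ^ 2 ≤ 2 * (y - 1)) (k : ℕ) :
    (1 + r) ^ k ≤ cheb y k ∧ (1 + r) * cheb y k ≤ cheb y (k + 1) := by
  induction k with
  | zero => simp only [cheb]; constructor <;> nlinarith
  | succ k ih =>
    obtain ⟨h1, h2⟩ := ih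
    have h0 : 0 < cheb y k := lt_of_lt_of_le (by positivity) h1
    have h0' : 0 < cheb y (k + 1) := lt_of_lt_of_le (by positivity) h2
    refine ⟨?_, ?_⟩
    · rw [pow_succ']; exact le_trans (by gcongr) h2
    · rw [cheb]
      have h3 : 0 < 1 - r + r ^ 2 := by nlinarith
      have h4 := mul_le_mul_of_nonneg_left h2 h3.le
      have h5 : 0 ≤ r ^ 3 * cheb y k := by positivity
      nlinarith [mul_nonneg (sub_nonneg.mpr h) h0'.le]

theorem Low.cheb {B : ℝ} {y : Str N → ℂ} (hB : 0 ≤ B) (hy : Low 1 B y) (k : ℕ) :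
    Low k ((2 * B + 1) ^ k) (cheb y k) := by
  have h2 : Low 1 (2 * B) (2 * y) := by
    have := hy.add hy
    rwa [← two_mul, ← two_mul] at this
  induction k using Nat.twoStepInduction with
  | zero => simpa [R344.cheb] using Low.one
  | one => exact h2.mono le_rfl (by linarith)
  | more k h0 h1 =>
    rw [R344.cheb]
    refine (((h2.mul h1).mono (by omega) le_rfl).sub (h0.mono (by omega) le_rfl)).mono le_rfl ?_
    have : (2 * B + 1) ^ k ≤ (2 * B + 1) ^ (k + 1) := pow_le_pow_right₀ (by linarith) (by omega)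
    rw [pow_succ' _ (k + 1)]
    linarith

theorem Low.wt (S : Finset (Fin N)) : Low 1 (2 * N) fun z => (wt S z : ℂ) := by
  have key : ∀ T : Finset (Fin N), Low 1 (2 * T.card) fun z => (R344.wt T z : ℂ) := by
    intro T
    induction T using Finset.induction_on with
    | empty =>
      intro q β _
      have : (fun z : Str N => ((R344.wt ∅ z : ℕ) : ℂ)) = 0 := by funext z; simp [R344.wt]
      rw [this]; simp
    | insert i T hi ih =>
      have h := ((Low.one (D := 1)).sub (Low.of_e (τ := {i}) (by simp))).add ih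
      have e1 : (fun z : Str N => ((R344.wt (insert i T) z : ℕ) : ℂ)) =
          (1 - e {i}) + fun z => ((R344.wt T z : ℕ) : ℂ) := by
        funext z
        simp only [R344.wt, Finset.filter_insert, e, Pi.add_apply, Pi.sub_apply, Pi.one_apply,
          Finset.mem_singleton, forall_eq]
        cases hz : z i
        · simp
        · rw [if_pos rfl, Finset.card_insert_of_notMem (by simp [hi])]
          simp [add_comm]
      rw [e1, Finset.card_insert_of_notMem hi]
      exact h.mono le_rfl (by push_cast; linarith)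
  refine (key S).mono le_rfl ?_
  have : (S.card : ℝ) ≤ N := by exact_mod_cast (by simpa using S.card_le_univ)
  linarith

theorem Low.fall (S : Finset (Fin N)) (a : ℕ) :
    Low a ((1 + 2 * N) ^ a)
      (∏ i ∈ Finset.range a, (1 - ((i : ℂ) + 1)⁻¹ • fun z => (R344.wt S z : ℂ))) := by
  induction a with
  | zero => simpa using Low.one
  | succ a ih =>
    rw [Finset.prod_range_succ, pow_succ]
    refine ih.mul ((Low.one.sub ((Low.wt S).smul _)).mono le_rfl ?_)
    have : ‖((a : ℂ) + 1)⁻¹‖ ≤ 1 := by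
      rw [norm_inv]
      apply inv_le_one_of_one_le₀
      have : ((a : ℂ) + 1) = ((a + 1 : ℕ) : ℂ) := by push_cast; ring
      rw [this, Complex.norm_natCast]
      exact_mod_cast Nat.succ_le_succ (Nat.zero_le a)
    have h0 : (0 : ℝ) ≤ N := Nat.cast_nonneg N
    nlinarith

theorem exists_approx' (S : Finset (Fin N)) (a k : ℕ) {x r : ℝ} (hx : 1 ≤ x) (hax : a ≤ x)
    (hr : 0 ≤ r) (hra : r ^ 2 ≤ 4 * a / x) :
    ∃ p : Str N → ℂ, Low (a + k) ((8 * N + 8) ^ (a + k)) p ∧
      ∀ z, (wt S z : ℝ) ≤ x → ‖e S z - p z‖ ≤ (8 * N + 8) ^ a * (k + 1) / (1 + r) ^ k := by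
  have hN : (0 : ℝ) ≤ N := Nat.cast_nonneg N
  have hx0 : 0 < x := by linarith
  set y0 : ℝ := 1 + 2 * a / x with hy0
  have hc := (le_cheb (y := y0) hr (by rw [hy0]; ring_nf; ring_nf at hra; linarith) k).1
  have hc1 : 1 ≤ (1 + r) ^ k := one_le_pow₀ (by linarith)
  have hc0 : 0 < cheb y0 k := by linarith
  set Y : Str N → ℂ := (y0 : ℂ) • 1 - ((2 / x : ℝ) : ℂ) • fun z => (wt S z : ℂ) with hY
  have hax' : a / x ≤ 1 := by rw [div_le_one hx0]; exact hax
  have hYl : Low 1 (3 + 4 * N) Y := by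
    refine ((Low.one.smul _).sub ((Low.wt S).smul _)).mono le_rfl ?_
    rw [Complex.norm_real, Complex.norm_real, Real.norm_of_nonneg (by positivity),
      Real.norm_of_nonneg (by positivity)]
    have h1 : 2 / x ≤ 2 := by rw [div_le_iff₀ hx0]; linarith
    have h2 : 2 * (a : ℝ) / x = 2 * (a / x) := by ring
    nlinarith
  have hq := Low.fall S a
  have hYz : ∀ z, cheb Y k z = (cheb (y0 - 2 / x * wt S z) k : ℝ) := fun z => by
    have h1 := map_cheb (Pi.evalRingHom (fun _ : Str N => ℂ) z) Y k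
    have h2 := map_cheb Complex.ofRealHom (y0 - 2 / x * wt S z) k
    simp only [Pi.evalRingHom_apply, Complex.ofRealHom_eq_coe] at h1 h2
    rw [h1, h2]
    simp [hY]
  refine ⟨_, ((hq.mul (hYl.cheb (by positivity) k)).smul ((cheb y0 k : ℝ) : ℂ)⁻¹).mono le_rfl ?_,
    fun z hz => ?_⟩
  · rw [norm_inv, Complex.norm_real, Real.norm_of_nonneg hc0.le, pow_add]
    have h1 : (cheb y0 k)⁻¹ ≤ 1 := inv_le_one_of_one_le₀ (by linarith)
    have h2 : (1 + 2 * (N : ℝ)) ^ a ≤ (8 * N + 8) ^ a :=
      pow_le_pow_left₀ (by positivity) (by linarith) a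
    have h3 : (2 * (3 + 4 * (N : ℝ)) + 1) ^ k ≤ (8 * N + 8) ^ k :=
      pow_le_pow_left₀ (by positivity) (by linarith) k
    calc _ ≤ 1 * ((8 * (N : ℝ) + 8) ^ a * (8 * N + 8) ^ k) := by gcongr
      _ = _ := one_mul _
  · rw [Pi.smul_apply, Pi.mul_apply, hYz, e_eq]
    by_cases h0 : wt S z = 0
    · have : ((cheb y0 k : ℝ) : ℂ) ≠ 0 := Complex.ofReal_ne_zero.mpr hc0.ne'
      simp only [h0, if_true, Finset.prod_apply, Pi.sub_apply, Pi.one_apply, Pi.smul_apply,
        Nat.cast_zero, sub_zero, Finset.prod_const_one, mul_zero, one_mul, smul_eq_mul,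
        inv_mul_cancel₀ this, sub_self, norm_zero]
      positivity
    rw [if_neg h0, zero_sub, norm_neg]
    by_cases h1 : wt S z ≤ a
    · obtain ⟨i, hi⟩ := Nat.exists_eq_succ_of_ne_zero h0
      have : (∏ i ∈ Finset.range a, (1 - ((i : ℂ) + 1)⁻¹ • fun z => (R344.wt S z : ℂ))) z = 0 := by
        rw [Finset.prod_apply]
        refine Finset.prod_eq_zero (i := i) (Finset.mem_range.mpr (by omega)) ?_
        have : (i : ℂ) + 1 ≠ 0 := Nat.cast_add_one_ne_zero i
        simp [hi, this]
      rw [this, zero_mul, smul_zero, norm_zero]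
      positivity
    · have h2 : (a : ℝ) ≤ wt S z := by exact_mod_cast (by omega)
      have h3 : |y0 - 2 / x * wt S z| ≤ 1 := by
        have e1 : y0 - 2 / x * wt S z = 1 - 2 * ((wt S z - a) / x) := by rw [hy0]; ring
        have h4 : (wt S z - a) / x ≤ 1 := by
          rw [div_le_one hx0]; linarith [(Nat.cast_nonneg a : (0 : ℝ) ≤ a)]
        have h5 : 0 ≤ (wt S z - a) / x := div_nonneg (by linarith) hx0.le
        rw [e1, abs_le]; constructor <;> linarith
      rw [norm_smul, norm_mul, norm_inv, Complex.norm_real, Complex.norm_real,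
        Real.norm_of_nonneg hc0.le, Real.norm_eq_abs, ← div_eq_inv_mul]
      have h6 := hq.norm_le z
      have h7 : (1 + 2 * (N : ℝ)) ^ a ≤ (8 * N + 8) ^ a :=
        pow_le_pow_left₀ (by positivity) (by linarith) a
      gcongr
      · exact h6.trans h7
      · exact abs_cheb_le h3 k

/-- Approximation of the indicator of weight zero on weights at most `x`. -/
theorem exists_approx (S : Finset (Fin N)) {l x : ℝ} (hl : 1 ≤ l) (hx : 2 * l ≤ x)
    (hxN : x ≤ (N : ℝ) ^ 2) :
    ∃ (D : ℕ) (p : Str N → ℂ), (D : ℝ) ≤ 26 * LL N * √(l * x) ∧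
      Low D (Real.exp (D * LL N)) p ∧
      ∀ z, (wt S z : ℝ) ≤ x → ‖e S z - p z‖ ≤ Real.exp (-l - 2) := by
  have hL := two_le_LL (N := N)
  have hN : (0 : ℝ) ≤ N := Nat.cast_nonneg N
  set L := LL N with hLdef
  set a : ℕ := ⌈l⌉₊ with ha
  have hla : l ≤ a := Nat.le_ceil l
  have hal : (a : ℝ) ≤ 2 * l := by linarith [Nat.ceil_lt_add_one (show 0 ≤ l by linarith)]
  have ha1 : (1 : ℝ) ≤ a := hl.trans hla
  have hax : (a : ℝ) ≤ x := hal.trans hx
  have hx0 : 0 < x := by linarith
  set m : ℝ := √(a * x) with hm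
  have hm2 : m * m = a * x := Real.mul_self_sqrt (by positivity)
  have ham : (a : ℝ) ≤ m := Real.le_sqrt_of_sq_le (by nlinarith)
  have hmx : m ≤ x := by rw [hm, Real.sqrt_le_left hx0.le]; nlinarith
  have hm0 : 0 < m := by linarith
  set k : ℕ := ⌈16 * L * m⌉₊ with hk
  have hk1 : 16 * L * m ≤ k := Nat.le_ceil _
  have hk2 : (k : ℝ) ≤ 16 * L * m + 1 := (Nat.ceil_lt_add_one (by positivity)).le
  set r : ℝ := m / x with hr
  have hr0 : 0 < r := by positivity
  have hr1 : r ≤ 1 := by rw [hr, div_le_one hx0]; exact hmx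
  have hrm : r * m = a := by rw [hr]; field_simp; linarith
  obtain ⟨p, hp, hpz⟩ := exists_approx' S a k (x := x) (r := r) (by linarith) hax hr0.le (by
    rw [hr, div_pow, div_le_div_iff₀ (by positivity) hx0]; nlinarith)
  have hml : m ≤ 1.42 * √(l * x) := by
    rw [hm, Real.sqrt_le_left (by positivity), mul_pow, Real.sq_sqrt (by positivity)]
    nlinarith
  have hE : (8 * (N : ℝ) + 8) = Real.exp L := exp_LL.symm
  refine ⟨a + k, p, ?_, ?_, fun z hz => (hpz z hz).trans ?_⟩
  · push_cast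
    have : (a : ℝ) + k ≤ 18 * L * m := by nlinarith
    have h2 : 18 * L * m ≤ 18 * L * (1.42 * √(l * x)) := by gcongr
    nlinarith [Real.sqrt_nonneg (l * x), mul_nonneg (show 0 ≤ L by linarith)
      (Real.sqrt_nonneg (l * x))]
  · rwa [Real.exp_nat_mul, ← hE]
  · have h1 : Real.exp (r / 2) ≤ 1 + r := by
      have := Real.exp_bound_div_one_sub_of_interval (x := r / 2) (by linarith) (by linarith)
      refine this.trans ?_
      rw [div_le_iff₀ (by linarith)]
      nlinarith
    have h2 : Real.exp (k * (r / 2)) ≤ (1 + r) ^ k := by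
      rw [Real.exp_nat_mul]; gcongr
    have hrN : 1 ≤ r * N := by
      have h3 : x ≤ m * N := by
        refine le_of_sq_le_sq ?_ (by positivity)
        nlinarith [mul_le_mul hax hxN hx0.le hx0.le, mul_le_mul_of_nonneg_right ha1 hx0.le,
          mul_le_mul_of_nonneg_left hxN (show 0 ≤ (a : ℝ) * x by positivity),
          mul_le_mul_of_nonneg_right ha1 (show 0 ≤ x * x by positivity)]
      rw [hr, div_mul_eq_mul_div, le_div_iff₀ hx0]; linarith
    have h3 : (k : ℝ) + 1 ≤ Real.exp L * Real.exp (k * (r / 4)) := by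
      have h4 := Real.add_one_le_exp (k * (r / 4))
      rw [← hE]
      have hk0 : (0 : ℝ) ≤ k := Nat.cast_nonneg k
      calc (k : ℝ) + 1 ≤ (8 * N + 8) * (k * (r / 4) + 1) := by
            nlinarith [mul_le_mul_of_nonneg_left hrN hk0, mul_nonneg hk0 hr0.le]
        _ ≤ _ := by gcongr
    rw [div_le_iff₀ (by positivity), hE, ← Real.exp_nat_mul]
    calc Real.exp (a * L) * (k + 1)
        ≤ Real.exp (a * L) * (Real.exp L * Real.exp (k * (r / 4))) := by gcongr
      _ ≤ Real.exp (-l - 2) * Real.exp (k * (r / 2)) := by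
          rw [← Real.exp_add, ← Real.exp_add, ← Real.exp_add, Real.exp_le_exp]
          have h5 : 16 * L * a ≤ k * r := by
            rw [← hrm]; nlinarith [mul_le_mul_of_nonneg_right hk1 hr0.le]
          nlinarith
      _ ≤ _ := by gcongr

end Crest.Agent.R344
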