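import Crest.Agent.R344.Defs
import Crest.Prelude.Def_QCircuit

/-! Row 344: computing parity moves weight `0` to weight `n`. -/

set_option autoImplicit false

namespace Crest.Agent.R344

open Matrix Crest.Quantum.Circuit
open scoped Matrix.Norms.L2Operator

variable {N : ℕ}

theorem par_entry_le (A : Op N) (x y : Str N) : ‖A x y‖ ≤ ‖A‖ := by
  have h := l2_opNorm_mulVec A (EuclideanSpace.single y (1 : ℂ))
  rw [EuclideanSpace.single, PiLp.norm_single, norm_one, mul_one] at h
  refine le_trans ?_ h
  refine le_trans (le_of_eq ?_) (PiLp.norm_apply_le _ x)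
  simp

theorem par_card {n : ℕ} (hnN : n ≤ N) (x : Fin n → Bool) :
    (Finset.univ.filter fun i : Fin N => inputString n x i = true).card =
      (Finset.univ.filter fun i => x i = true).card := by
  symm
  refine Finset.card_bij (fun i _ => Fin.castLE hnN i) (fun i hi => ?_)
    (fun i _ j _ h => Fin.castLE_injective _ h) (fun j hj => ?_)
  · simpa [inputString] using hi
  · have hj' := (Finset.mem_filter.1 hj).2
    unfold inputString at hj'
    split_ifs at hj' with h
    exact ⟨⟨j, h⟩, by simpa using hj', rfl⟩

theorem par_mulVec (U : Op N) (x σ : Str N) : (U *ᵥ basisState x) σ = U σ x := by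
  simp [mulVec, dotProduct, basisState]

theorem par_false (U : Op N) (o : Fin N) (x : Str N) :
    (Uᴴ * PZ {o} * U) x x = (outcomeProb o false (U *ᵥ basisState x) : ℝ) := by
  rw [mul_apply, outcomeProb]
  push_cast
  refine Finset.sum_congr rfl fun σ _ => ?_
  rw [PZ, mul_diagonal, par_mulVec, conjTranspose_apply]
  simp only [e, Finset.mem_singleton, forall_eq]
  split_ifs
  · rw [mul_one, RCLike.star_def, Complex.conj_mul']
    push_cast
    rfl
  · simp

theorem par_total {U : Op N} (hU : Uᴴ * U = 1) (o : Fin N) (x : Str N) :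
    outcomeProb o true (U *ᵥ basisState x) + outcomeProb o false (U *ᵥ basisState x) = 1 := by
  have h : (Uᴴ * U) x x = 1 := by rw [hU, one_apply_eq]
  rw [mul_apply] at h
  have h2 : ((∑ σ, ‖U σ x‖ ^ 2 : ℝ) : ℂ) = 1 := by
    rw [← h]
    push_cast
    refine Finset.sum_congr rfl fun σ _ => ?_
    rw [conjTranspose_apply, RCLike.star_def, Complex.conj_mul']
  rw [← Complex.ofReal_injective (h2.trans Complex.ofReal_one.symm), outcomeProb, outcomeProb,
    ← Finset.sum_add_distrib]
  refine Finset.sum_congr rfl fun σ _ => ?_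
  rw [par_mulVec]
  cases σ o <;> simp

/-- The two Hadamard frames. -/
noncomputable def parH (b : Bool) : Matrix Bool Bool ℂ :=
  Matrix.of fun x u => ((√2)⁻¹ : ℝ) * if (x && xor b u) = true then -1 else 1

theorem par_c : (((√2)⁻¹ : ℝ) : ℂ) * ((√2)⁻¹ : ℝ) = 1 / 2 := by
  rw [← Complex.ofReal_mul, ← mul_inv, Real.mul_self_sqrt (by norm_num)]
  norm_num

theorem par_star_mul (p q : Prop) [Decidable p] [Decidable q] :
    star ((((√2)⁻¹ : ℝ) : ℂ) * if p then -1 else 1) * ((((√2)⁻¹ : ℝ) : ℂ) * if q then -1 else 1) =
      1 / 2 * ((if p then -1 else 1) * if q then -1 else 1) := by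
  rw [← par_c, star_mul', RCLike.star_def, Complex.conj_ofReal]
  split_ifs <;> simp

theorem parH_mem (b : Bool) : parH b ∈ Matrix.unitaryGroup Bool ℂ := by
  rw [mem_unitaryGroup_iff']
  ext u v
  simp only [mul_apply, star_apply, parH, of_apply, par_star_mul, Fintype.sum_bool]
  cases b <;> cases u <;> cases v <;> norm_num

/-- The local frame. -/
noncomputable def parV (n : ℕ) (i : Fin N) (b : Bool) : Matrix Bool Bool ℂ :=
  if (i : ℕ) < n then parH b else 1

/-- The averaged weight. -/
def parg (n : ℕ) (i : Fin N) (b : Bool) : ℝ :=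
  if (i : ℕ) < n then (if b = true then -1 else 1) else (if b = true then 0 else 2)

theorem par_sum_one (n : ℕ) (i : Fin N) (x y : Bool) :
    ∑ b, star (parV n i b x (inputString n (fun _ => true) i)) * parV n i b y false =
      if x = y then (parg n i x : ℂ) else 0 := by
  by_cases h : (i : ℕ) < n
  · simp only [parV, parg, inputString, h, if_true, dif_pos, parH, of_apply, par_star_mul,
      Fintype.sum_bool]
    cases x <;> cases y <;> norm_num
  · simp only [parV, parg, inputString, h, if_false, dif_neg, not_false_iff, Fintype.sum_bool]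
    cases x <;> cases y <;> simp <;> norm_num

theorem par_sum (n : ℕ) (x y : Str N) :
    ∑ z : Str N, star (tens (fun i => parV n i (z i)) x (inputString n fun _ => true)) *
      tens (fun i => parV n i (z i)) y (fun _ => false) =
      if x = y then ((∏ i, parg n i (x i) : ℝ) : ℂ) else 0 := by
  simp only [tens, of_apply, star_prod, ← Finset.prod_mul_distrib]
  rw [← Fintype.prod_sum (fun (i : Fin N) (b : Bool) =>
    star (parV n i b (x i) (inputString n (fun _ => true) i)) * parV n i b (y i) false)]
  simp only [par_sum_one]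
  split_ifs with h
  · subst h
    simp
  · obtain ⟨i, hi⟩ := Function.ne_iff.mp h
    exact Finset.prod_eq_zero (Finset.mem_univ i) (if_neg hi)

theorem par_avg (n : ℕ) (Q : Op N) :
    ∑ z : Str N, ((tens fun i => parV n i (z i))ᴴ * Q * tens fun i => parV n i (z i))
      (inputString n fun _ => true) (fun _ => false) =
      ∑ x, ((∏ i, parg n i (x i) : ℝ) : ℂ) * Q x x := by
  simp only [mul_apply, conjTranspose_apply, Finset.sum_mul]
  rw [Finset.sum_comm]
  refine Finset.sum_congr rfl fun y _ => ?_
  rw [Finset.sum_comm]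
  have : ∀ x : Str N, ∑ z : Str N, star (tens (fun i => parV n i (z i)) x
      (inputString n fun _ => true)) * Q x y * tens (fun i => parV n i (z i)) y (fun _ => false) =
      (if x = y then ((∏ i, parg n i (x i) : ℝ) : ℂ) else 0) * Q x y := fun x => by
    rw [← par_sum, Finset.sum_mul]
    exact Finset.sum_congr rfl fun z _ => by ring
  simp only [this, ite_mul, zero_mul, Finset.sum_ite_eq', Finset.mem_univ, if_true]

theorem par_sign (n : ℕ) (x : Str N) : ∏ i, parg n i (x i) =
    (-1) ^ (Finset.univ.filter fun i => x i = true).card * ∏ i, |parg n i (x i)| := by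
  rw [← Finset.prod_const, Finset.prod_filter, ← Finset.prod_mul_distrib]
  refine Finset.prod_congr rfl fun i _ => ?_
  unfold parg
  split_ifs <;> norm_num

/-- Let `Q = Uᴴ * PZ {o} * U` and `x' = inputString n x`.  Then `Q x' x'` is the probability of
outcome `false`, and the two outcome probabilities add up to `1`, so `hall` gives
`(-1) ^ |x| (Q x' x' - 1/2) ≥ ε`, hence `2 ^ (-n) ∑ x, (-1) ^ |x| Q x' x' ≥ ε` (`n ≥ 1`).
For `z : Fin n → Bool` let `W z = tens` of `(√2)⁻¹ • !![1, 1; ±1, ∓1]` (sign `(-1) ^ z i`) on the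
input wires and `1` elsewhere.  The average over `z` of the entry `(1ⁿ0, 0)` of
`(U * W z)ᴴ * PZ {o} * (U * W z)` is `2 ^ (-n) ∑ x, (-1) ^ |x| Q x' x'`, and each such entry is an
entry of the matrix in `Bd` (`S` = input wires, `s = n - 1`), so its modulus is at most `β`. -/
theorem parity_le {n t : ℕ} (hn : 1 ≤ n) (hnN : n ≤ N) {U : Op N} (hU : Circ t U) {β : ℝ}
    (h : Bd N t 1 ((n : ℝ) - 1) β) (o : Fin N) {ε : ℝ}
    (hall : ∀ x : Fin n → Bool,
      1 / 2 + ε ≤ outcomeProb o (parity x) (U *ᵥ basisState (inputString n x))) : ε ≤ β := by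
  set G : Str N → ℝ := fun x => ∏ i, parg n i (x i) with hG
  set A : Str N → ℝ := fun x => ∏ i, |parg n i (x i)| with hA
  set q : Str N → ℝ := fun x => outcomeProb o false (U *ᵥ basisState x) with hq
  have h2 : (0 : ℝ) < 2 ^ N := by positivity
  have hG0 : ∑ x, G x = 0 := by
    rw [hG, ← Fintype.prod_sum (fun (i : Fin N) (b : Bool) => parg n i b)]
    refine Finset.prod_eq_zero (Finset.mem_univ ⟨0, by omega⟩) ?_
    simp [parg, show 0 < n from hn]
  have hA0 : ∑ x, A x = 2 ^ N := by
    rw [hA, ← Fintype.prod_sum (fun (i : Fin N) (b : Bool) => |parg n i b|)]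
    rw [Finset.prod_congr rfl (g := fun _ => (2 : ℝ))]
    · simp
    · intro i _
      unfold parg
      split_ifs <;> simp <;> norm_num
  have hlow : ∀ x, ε * A x ≤ G x * q x - 1 / 2 * G x := by
    intro x
    by_cases hx : ∀ i : Fin N, ¬ (i : ℕ) < n → x i = false
    · obtain ⟨x', rfl⟩ : ∃ x' : Fin n → Bool, x = inputString n x' := by
        refine ⟨fun i => x (Fin.castLE hnN i), funext fun i => ?_⟩
        unfold inputString
        split_ifs with hi
        exacts [rfl, hx i hi]
      have h1 := hall x'
      have h3 := par_total hU.unitary o (inputString n x')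
      have h4 : G (inputString n x') = (-1) ^ (Finset.univ.filter fun i => x' i = true).card *
          A (inputString n x') := by rw [← par_card hnN]; exact par_sign n _
      have h5 : 0 ≤ A (inputString n x') := Finset.prod_nonneg fun i _ => abs_nonneg _
      rw [parity] at h1
      rw [h4, neg_one_pow_eq_pow_mod_two, Nat.mod_two_of_bodd]
      simp only [hq]
      cases hb : Nat.bodd (Finset.univ.filter fun i => x' i = true).card <;> rw [hb] at h1 <;>
        simp only [Bool.toNat_false, Bool.toNat_true, pow_zero, pow_one] <;> nlinarith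
    · push Not at hx
      obtain ⟨i, hi, hxi⟩ := hx
      have h0 : parg n i (x i) = 0 := by simp [parg, hxi, not_lt.2 hi]
      have h1 : G x = 0 := Finset.prod_eq_zero (Finset.mem_univ i) h0
      have h3 : A x = 0 := Finset.prod_eq_zero (Finset.mem_univ i) (by rw [h0, abs_zero])
      simp [h1, h3]
  have hsum : ε * 2 ^ N ≤ ∑ x, G x * q x := by
    have := Finset.sum_le_sum fun x (_ : x ∈ Finset.univ) => hlow x
    rwa [← Finset.mul_sum, Finset.sum_sub_distrib, ← Finset.mul_sum, hG0, hA0, mul_zero,
      sub_zero] at this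
  have hent : ∀ z : Str N, ‖((tens fun i => parV n i (z i))ᴴ * (Uᴴ * PZ {o} * U) *
      tens fun i => parV n i (z i)) (inputString n fun _ => true) (fun _ => false)‖ ≤ β := by
    intro z
    have hW : IsLoc (tens fun i => parV n i (z i) : Op N) := ⟨_, fun i => by
      unfold parV
      split_ifs
      exacts [parH_mem _, one_mem _], rfl⟩
    have h1 := (par_entry_le _ (inputString n fun _ => true) (fun _ => false)).trans
      (h _ (hU.mul_loc hW) Finset.univ {o} (by simp))
    have hw : (n : ℝ) - 1 < wt (Finset.univ : Finset (Fin N)) (inputString n fun _ => true) := by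
      rw [wt, par_card hnN]
      simp
    rw [show PZ (Finset.univ : Finset (Fin N)) = diagonal (e Finset.univ) from rfl, mul_diagonal, HI,
      diagonal_mul, if_pos hw, conjTranspose_mul] at h1
    simpa [e, Matrix.mul_assoc] using h1
  have hup : ∑ x, G x * q x ≤ 2 ^ N * β := by
    have h1 := par_avg n (Uᴴ * PZ {o} * U)
    simp only [par_false] at h1
    have h3 : ((∑ x, G x * q x : ℝ) : ℂ) = ∑ x : Str N, ((∏ i, parg n i (x i) : ℝ) : ℂ) *
        (outcomeProb o false (U *ᵥ basisState x) : ℝ) := by
      simp only [hG, hq, Complex.ofReal_sum, Complex.ofReal_mul]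
    refine (le_abs_self _).trans ?_
    rw [← Real.norm_eq_abs, ← Complex.norm_real, h3, ← h1]
    refine (norm_sum_le _ _).trans ((Finset.sum_le_sum fun z _ => hent z).trans ?_)
    simp
  nlinarith

end Crest.Agent.R344
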